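import Vale.Agent.P318.H508.Kernel
import Vale.Agent.P318.H937.Spec

/-!
# The specification `SpecSDP`
-/

open Finset
open Vale.Agent.P318.H867 Vale.Agent.P318.H937

namespace Vale.Agent.P318.H508

theorem pair_indicator {X : Type} [Fintype X] [DecidableEq X] (U : Finset X) (v : X → ZMod 2) :
    pair (fun x => if x ∈ U then 1 else 0) v = ∑ x ∈ U, v x := by
  unfold pair
  rw [← Finset.sum_filter_add_sum_filter_not univ (fun x => x ∈ U)]
  have h1 : ∑ x ∈ univ.filter (fun x => x ∉ U), (if x ∈ U then (1 : ZMod 2) else 0) * v x = 0 :=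
    Finset.sum_eq_zero fun x hx => by rw [if_neg (mem_filter.1 hx).2, zero_mul]
  have h2 : ∑ x ∈ univ.filter (fun x => x ∈ U), (if x ∈ U then (1 : ZMod 2) else 0) * v x
      = ∑ x ∈ U, v x := by
    have h3 : univ.filter (fun x => x ∈ U) = U := by ext; simp
    rw [h3]
    exact Finset.sum_congr rfl fun x hx => by rw [if_pos hx, one_mul]
  rw [h1, h2, add_zero]

theorem sz_indicator {X : Type} [Fintype X] [DecidableEq X] (U : Finset X) :
    sz (fun x => if x ∈ U then (1 : ZMod 2) else 0) = U.card := by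
  unfold sz
  congr 1
  ext x
  rw [mem_filter]
  by_cases h : x ∈ U
  · simp [h]
  · simp [h]

theorem t_ineq {κ s : ℕ} (hs : 20 ≤ s) (hκ : κ ≤ 2 ^ s) :
    25 * κ * 4 ^ s * 3 ^ (8 * s + 2 - 2) ≤ 4 ^ (8 * s + 2 - 2) := by
  have h0 : 8 * s + 2 - 2 = 8 * s := by omega
  rw [h0, pow_mul, pow_mul]
  norm_num
  obtain ⟨r, rfl⟩ := Nat.exists_eq_add_of_le hs
  calc 25 * κ * 4 ^ (20 + r) * 6561 ^ (20 + r)
      ≤ 25 * 2 ^ (20 + r) * 4 ^ (20 + r) * 6561 ^ (20 + r) := by gcongr
    _ = 25 * (2 * 4 * 6561) ^ (20 + r) := by rw [mul_pow, mul_pow]; ring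
    _ = (25 * 52488 ^ 20) * 52488 ^ r := by norm_num [pow_add]; ring
    _ ≤ 65536 ^ 20 * 65536 ^ r := by
        refine Nat.mul_le_mul (by norm_num) (Nat.pow_le_pow_left (by norm_num) _)
    _ = 65536 ^ (20 + r) := by rw [pow_add]

/-- Section 14. -/
theorem spec_sdp : SpecSDP := by
  intro X _ _ _ _ κ s d k D pc V V1 Γ g hG hs20 hκs h100 h4k _ _
  classical
  have := hG.fin
  have := hG.ne
  let _ : Fintype Γ := Fintype.ofFinite Γ
  have hX := card_pos' (X := X)
  have hexp : ∀ x : X, x + x = 0 := fun x => ZModModule.add_self x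
  have hind : ∀ U : Finset X, U.Nonempty → U.card ≤ 2 * κ → ∃ v ∈ V, ∑ x ∈ U, v x ≠ 0 := by
    intro U hU hc
    have h1 : (fun x => if x ∈ U then (1 : ZMod 2) else 0) ≠ 0 := by
      obtain ⟨x, hx⟩ := hU
      intro h
      have := congrFun h x
      simp [hx] at this
    obtain ⟨v, hv, h2⟩ := hG.indep _ h1 (by rw [sz_indicator]; omega)
    rw [pair_indicator] at h2
    refine ⟨v, hG.le hv, ?_⟩
    rw [h2]
    decide
  have hmd : ∀ v ∈ V, v ≠ 0 → Fintype.card X ≤ 2 ^ s * (univ.filter fun y => v y ≠ 0).card := by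
    intro v hv hv0
    rw [hG.card]
    exact hG.deg v hv hv0
  obtain ⟨dd, hneg, horb, hle, hcost, hfar⟩ := gl_kernel V hexp κ s (8 * s + 2) hG.card hG.trans
    hG.one hmd hind ⟨4 * s + 1, by ring⟩ (by omega) (t_ineq hs20 hκs) (by omega) (by omega)
  refine ⟨dd, hneg, ?_, hle, ?_, ?_⟩
  · rintro u v ⟨x, hx⟩
    exact horb u v x fun y => congrFun hx y
  · rw [finsum_eq_sum_of_fintype, Nat.card_eq_fintype_card, Nat.card_eq_fintype_card]
    let gV : Γ → V := fun γ => ⟨g γ, hG.test γ⟩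
    have h1 : ∀ w : V × Γ, ∑ u : V, (if (u : X → ZMod 2) = w.1 + g w.2 then dd w.1 u else 0)
        = dd w.1 (w.1 + gV w.2) := by
      intro w
      rw [Finset.sum_eq_single (w.1 + gV w.2)]
      · exact if_pos rfl
      · intro u _ hu
        refine if_neg fun h => hu (Subtype.ext h)
      · intro h
        exact absurd (mem_univ _) h
    rw [Finset.sum_congr rfl fun w _ => h1 w, ← Finset.univ_product_univ,
      Finset.sum_product_right]
    have h2 : ∑ γ : Γ, (((univ.filter fun y => (gV γ).1 y ≠ 0).card : ℝ))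
        = Fintype.card X * ((1 / 2) ^ s * (Fintype.card Γ : ℝ)) := by
      have h3 : ∀ γ : Γ, (((univ.filter fun y => (gV γ).1 y ≠ 0).card : ℝ))
          = ∑ y : X, if g γ y ≠ 0 then (1 : ℝ) else 0 := by
        intro γ
        rw [Finset.sum_boole]
      rw [Finset.sum_congr rfl fun γ _ => h3 γ, Finset.sum_comm]
      have h4 : ∀ y : X, ∑ γ : Γ, (if g γ y ≠ 0 then (1 : ℝ) else 0)
          = (1 / 2) ^ s * (Fintype.card Γ : ℝ) := by
        intro y
        rw [Finset.sum_boole]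
        have h5 := hG.dens y
        rw [Nat.card_eq_fintype_card, Nat.card_eq_fintype_card, Fintype.card_subtype] at h5
        rw [← h5]
        congr 2
        refine Finset.filter_congr fun γ _ => ?_
        have h6 : ∀ a : ZMod 2, a ≠ 0 ↔ a = 1 := by decide
        exact h6 _
      rw [Finset.sum_congr rfl fun y _ => h4 y, Finset.sum_const, Finset.card_univ, nsmul_eq_mul]
    calc ∑ γ : Γ, ∑ v : V, dd v (v + gV γ)
        ≤ ∑ γ : Γ, 6 * ((8 * s + 2 : ℕ) : ℝ)
          * (((univ.filter fun y => (gV γ).1 y ≠ 0).card : ℝ) / Fintype.card X)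
          * Fintype.card V := Finset.sum_le_sum fun γ _ => hcost (gV γ)
      _ = 6 * ((8 * s + 2 : ℕ) : ℝ) * ((∑ γ : Γ, (((univ.filter fun y =>
            (gV γ).1 y ≠ 0).card : ℝ))) / Fintype.card X) * Fintype.card V := by
          rw [Finset.sum_div, Finset.mul_sum, Finset.sum_mul]
      _ = 6 * ((8 * s + 2 : ℕ) : ℝ) * ((1 / 2) ^ s * (Fintype.card Γ : ℝ)) * Fintype.card V := by
          rw [h2, mul_div_cancel_left₀ _ hX.ne']
      _ ≤ 1000 * s * ((1 / 2) ^ s * (Fintype.card Γ : ℝ)) * Fintype.card V := by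
          have h7 : (6 * ((8 * s + 2 : ℕ) : ℝ)) ≤ 1000 * s := by
            have h8 : (20 : ℝ) ≤ s := by exact_mod_cast hs20
            push_cast
            linarith
          gcongr
      _ = _ := by ring
  · have h1 : (8 : ℝ) * ((univ.filter fun p : V × V => dd p.1 p.2 < 1).card : ℝ)
        ≤ (Fintype.card V : ℝ) ^ 2 := by exact_mod_cast hfar
    rw [Nat.card_eq_fintype_card]
    linarith

end Vale.Agent.P318.H508
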