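import Vale.Agent.P318.H508.Basic

/-!
# Real characters of a group of exponent two, and the convolution bound
-/

open Finset

namespace Vale.Agent.P318.H508

variable {X : Type*} [AddCommGroup X] [Fintype X]

/-- Real part of a complex character. -/
noncomputable def chi (ψ : AddChar X ℂ) (x : X) : ℝ := (ψ x).re

omit [Fintype X] in
theorem chi_spec (hexp : ∀ x : X, x + x = 0) (ψ : AddChar X ℂ) (x : X) :
    (ψ x = 1 ∧ chi ψ x = 1) ∨ (ψ x = -1 ∧ chi ψ x = -1) := by
  have h1 : ψ x * ψ x = 1 := by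
    rw [← AddChar.map_add_eq_mul, hexp, AddChar.map_zero_eq_one]
  rcases mul_self_eq_one_iff.1 h1 with h | h
  · left
    exact ⟨h, by rw [chi, h, Complex.one_re]⟩
  · right
    exact ⟨h, by rw [chi, h, Complex.neg_re, Complex.one_re]⟩

omit [Fintype X] in
theorem chi_sign (hexp : ∀ x : X, x + x = 0) (ψ : AddChar X ℂ) (x : X) :
    chi ψ x = 1 ∨ chi ψ x = -1 := by
  rcases chi_spec hexp ψ x with h | h
  · exact Or.inl h.2
  · exact Or.inr h.2

omit [Fintype X] in
theorem chi_coe (hexp : ∀ x : X, x + x = 0) (ψ : AddChar X ℂ) (x : X) :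
    (chi ψ x : ℂ) = ψ x := by
  rcases chi_spec hexp ψ x with h | h <;> rw [h.1, h.2] <;> simp

omit [Fintype X] in
theorem chi_add (hexp : ∀ x : X, x + x = 0) (ψ : AddChar X ℂ) (x y : X) :
    chi ψ (x + y) = chi ψ x * chi ψ y := by
  have h : (chi ψ (x + y) : ℂ) = (chi ψ x * chi ψ y : ℝ) := by
    push_cast
    rw [chi_coe hexp, chi_coe hexp, chi_coe hexp, AddChar.map_add_eq_mul]
  exact_mod_cast h

theorem sum_chi [DecidableEq X] (x : X) :
    ∑ ψ : AddChar X ℂ, chi ψ x = if x = 0 then (Fintype.card X : ℝ) else 0 := by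
  have h := congrArg Complex.re (AddChar.sum_apply_eq_ite x)
  rw [Complex.re_sum] at h
  unfold chi
  rw [h]
  split_ifs <;> simp

theorem parseval (hexp : ∀ x : X, x + x = 0) (f : X → ℝ) :
    ∑ ψ : AddChar X ℂ, (∑ x, f x * chi ψ x) ^ 2 = Fintype.card X * ∑ x, f x ^ 2 := by
  classical
  have h1 : ∀ ψ : AddChar X ℂ, (∑ x, f x * chi ψ x) ^ 2
      = ∑ x, ∑ y, f x * f y * chi ψ (x + y) := by
    intro ψ
    rw [sq, Finset.sum_mul_sum]
    refine Finset.sum_congr rfl fun x _ => Finset.sum_congr rfl fun y _ => ?_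
    rw [chi_add hexp]
    ring
  rw [Finset.sum_congr rfl fun ψ _ => h1 ψ, Finset.sum_comm, Finset.mul_sum]
  refine Finset.sum_congr rfl fun x _ => ?_
  rw [Finset.sum_comm]
  have h2 : ∀ y, ∑ ψ : AddChar X ℂ, f x * f y * chi ψ (x + y)
      = if x = y then (Fintype.card X : ℝ) * f x ^ 2 else 0 := by
    intro y
    rw [← Finset.mul_sum, sum_chi]
    have h3 : x + y = 0 ↔ x = y := by
      constructor
      · intro h
        have h4 : x + y = y + y := by rw [h, hexp]
        exact add_right_cancel h4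
      · rintro rfl
        exact hexp x
    by_cases h : x = y
    · rw [if_pos (h3.2 h), if_pos h, ← h]
      ring
    · rw [if_neg (fun h' => h (h3.1 h')), if_neg h, mul_zero]
  rw [Finset.sum_congr rfl fun y _ => h2 y]
  simp

/-- A function with small Fourier coefficients has small translates on average. -/
theorem conv_bound (hexp : ∀ x : X, x + x = 0) {M : ℝ} {v : X → ℝ}
    (hv : ∀ ψ : AddChar X ℂ, (∑ z, v z * chi ψ z) ^ 2 ≤ M * Fintype.card X)
    {u : X → ℝ} (hu : IsSign u) : ∑ x, ip u (sh x v) ^ 2 ≤ M := by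
  have hX := card_pos' (X := X)
  set N : ℝ := (Fintype.card X : ℝ) with hN
  have h1 : ∀ ψ : AddChar X ℂ, ∑ x, (∑ y, u y * v (y + x)) * chi ψ x
      = (∑ y, u y * chi ψ y) * (∑ z, v z * chi ψ z) := by
    intro ψ
    have h2 : ∀ x, (∑ y, u y * v (y + x)) * chi ψ x
        = ∑ y, u y * chi ψ y * (v (y + x) * chi ψ (y + x)) := by
      intro x
      rw [Finset.sum_mul]
      refine Finset.sum_congr rfl fun y _ => ?_
      rw [chi_add hexp]
      have h3 : chi ψ y * chi ψ y = 1 := by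
        rcases chi_sign hexp ψ y with h | h <;> rw [h] <;> norm_num
      calc u y * v (y + x) * chi ψ x = u y * v (y + x) * chi ψ x * (chi ψ y * chi ψ y) := by
            rw [h3, mul_one]
        _ = _ := by ring
    rw [Finset.sum_congr rfl fun x _ => h2 x, Finset.sum_comm, Finset.sum_mul]
    refine Finset.sum_congr rfl fun y _ => ?_
    rw [← Finset.mul_sum]
    congr 1
    exact Fintype.sum_equiv (Equiv.addLeft y) _ _ fun x => rfl
  have h4 := parseval hexp (fun x => ∑ y, u y * v (y + x))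
  have h5 := parseval hexp u
  have h6 : ∑ x, u x ^ 2 = N := by
    rw [Finset.sum_congr rfl fun x _ => hu.sq x]
    simp [hN]
  rw [h6, ← hN] at h5
  rw [← hN] at h4
  have h7 : N * ∑ x, (∑ y, u y * v (y + x)) ^ 2 ≤ N * (M * N ^ 2) := by
    rw [← h4]
    calc ∑ ψ : AddChar X ℂ, (∑ x, (∑ y, u y * v (y + x)) * chi ψ x) ^ 2
        = ∑ ψ : AddChar X ℂ, (∑ y, u y * chi ψ y) ^ 2 * (∑ z, v z * chi ψ z) ^ 2 :=
          Finset.sum_congr rfl fun ψ _ => by rw [h1 ψ, mul_pow]
      _ ≤ ∑ ψ : AddChar X ℂ, (∑ y, u y * chi ψ y) ^ 2 * (M * N) :=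
          Finset.sum_le_sum fun ψ _ => mul_le_mul_of_nonneg_left (hv ψ) (sq_nonneg _)
      _ = N * (M * N ^ 2) := by
          rw [← Finset.sum_mul, h5]
          ring
  have h8 : ∑ x, (∑ y, u y * v (y + x)) ^ 2 ≤ M * N ^ 2 := le_of_mul_le_mul_left h7 hX
  have h9 : ∑ x, ip u (sh x v) ^ 2 = (∑ x, (∑ y, u y * v (y + x)) ^ 2) / N ^ 2 := by
    rw [Finset.sum_div]
    refine Finset.sum_congr rfl fun x _ => ?_
    unfold ip sh
    rw [div_pow]
  rw [h9, div_le_iff₀ (by positivity)]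
  exact h8

end Vale.Agent.P318.H508
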