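import Mathlib

/-!
# Khintchine's inequality for signs of limited independence
-/

open Finset

namespace Vale.Agent.P318.H508

section

variable {ι : Type*} [Fintype ι] [DecidableEq ι]

/-- The indices taken an odd number of times. -/
def oddSet {n : ℕ} (f : Fin n → ι) : Finset ι :=
  univ.filter fun i => Odd ((univ.filter fun l => f l = i).card)

theorem oddSet_card_le {n : ℕ} (f : Fin n → ι) : (oddSet f).card ≤ n := by
  have h : oddSet f ⊆ univ.image f := by
    intro i hi
    rw [oddSet, mem_filter] at hi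
    have h1 : (univ.filter fun l => f l = i).Nonempty := by
      rw [← Finset.card_pos]
      exact hi.2.pos
    obtain ⟨l, hl⟩ := h1
    rw [mem_filter] at hl
    exact mem_image.2 ⟨l, mem_univ _, hl.2⟩
  calc (oddSet f).card ≤ (univ.image f).card := card_le_card h
    _ ≤ (univ : Finset (Fin n)).card := card_image_le
    _ = n := by simp

theorem prod_sign {n : ℕ} (f : Fin n → ι) (s : ι → ℝ) (hs : ∀ i, s i = 1 ∨ s i = -1) :
    ∏ l, s (f l) = ∏ i ∈ oddSet f, s i := by
  rw [← Finset.prod_fiberwise univ f (fun l => s (f l)), oddSet, Finset.prod_filter]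
  refine Finset.prod_congr rfl fun i _ => ?_
  have h1 : ∏ l ∈ univ.filter (fun l => f l = i), s (f l)
      = s i ^ (univ.filter fun l => f l = i).card := by
    rw [← Finset.prod_const]
    refine Finset.prod_congr rfl fun l hl => ?_
    rw [(mem_filter.1 hl).2]
  rw [h1]
  split_ifs with h
  · rcases hs i with h2 | h2 <;> rw [h2]
    · simp
    · exact h.neg_one_pow
  · rw [Nat.not_odd_iff_even] at h
    rcases hs i with h2 | h2 <;> rw [h2]
    · simp
    · exact h.neg_one_pow

theorem moment_eq {Ω : Type*} [Fintype Ω] (s : Ω → ι → ℝ) (hs : ∀ ω i, s ω i = 1 ∨ s ω i = -1)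
    (n : ℕ) (hind : ∀ U : Finset ι, U.Nonempty → U.card ≤ n → ∑ ω, ∏ i ∈ U, s ω i = 0)
    (c : ι → ℝ) :
    ∑ ω, (∑ i, c i * s ω i) ^ n
      = Fintype.card Ω * ∑ f : Fin n → ι, (∏ l, c (f l)) * (if oddSet f = ∅ then 1 else 0) := by
  have h1 : ∀ ω, (∑ i, c i * s ω i) ^ n
      = ∑ f : Fin n → ι, (∏ l, c (f l)) * ∏ i ∈ oddSet f, s ω i := by
    intro ω
    rw [Fintype.sum_pow]
    refine Finset.sum_congr rfl fun f _ => ?_
    rw [Finset.prod_mul_distrib, prod_sign f (s ω) (hs ω)]
  rw [Finset.sum_congr rfl fun ω _ => h1 ω, Finset.sum_comm, Finset.mul_sum]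
  refine Finset.sum_congr rfl fun f _ => ?_
  rw [← Finset.mul_sum]
  split_ifs with h
  · rw [h]
    simp [mul_comm]
  · rw [hind _ (Finset.nonempty_iff_ne_empty.2 h) (oddSet_card_le f)]
    simp

/-- Signs of bits. -/
def bs (b : Bool) : ℝ := if b then 1 else -1

theorem bs_sign (b : Bool) : bs b = 1 ∨ bs b = -1 := by
  cases b <;> simp [bs]

theorem cube_prod (g : ι → Bool → ℝ) :
    ∑ z : ι → Bool, ∏ i, g i (z i) = ∏ i, (g i true + g i false) := by
  have h := Finset.prod_univ_sum (fun _ : ι => (univ : Finset Bool)) g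
  rw [Fintype.piFinset_univ] at h
  rw [← h]
  refine Finset.prod_congr rfl fun i _ => ?_
  simp

theorem cube_ind (U : Finset ι) (hU : U.Nonempty) :
    ∑ z : ι → Bool, ∏ i ∈ U, bs (z i) = 0 := by
  have h1 : ∀ z : ι → Bool, ∏ i ∈ U, bs (z i) = ∏ i, (if i ∈ U then bs (z i) else 1) := by
    intro z
    rw [← Finset.prod_filter]
    simp
  rw [Finset.sum_congr rfl fun z _ => h1 z,
    cube_prod (fun i b => if i ∈ U then bs b else 1)]
  obtain ⟨i, hi⟩ := hU
  refine Finset.prod_eq_zero (mem_univ i) ?_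
  simp [hi, bs]

theorem cube_exp (c : ι → ℝ) :
    ∑ z : ι → Bool, Real.exp (∑ i, c i * bs (z i))
      ≤ 2 ^ Fintype.card ι * Real.exp ((∑ i, c i ^ 2) / 2) := by
  have h1 : ∀ z : ι → Bool, Real.exp (∑ i, c i * bs (z i)) = ∏ i, Real.exp (c i * bs (z i)) :=
    fun z => Real.exp_sum _ _
  rw [Finset.sum_congr rfl fun z _ => h1 z, cube_prod (fun i b => Real.exp (c i * bs b))]
  have h2 : (2 : ℝ) ^ Fintype.card ι * Real.exp ((∑ i, c i ^ 2) / 2)
      = ∏ i, (2 * Real.exp (c i ^ 2 / 2)) := by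
    rw [Finset.prod_mul_distrib, Finset.prod_const, Finset.card_univ, ← Real.exp_sum,
      Finset.sum_div]
  rw [h2]
  refine Finset.prod_le_prod (fun i _ => by positivity) fun i _ => ?_
  have h3 := Real.cosh_le_exp_half_sq (c i)
  rw [Real.cosh_eq] at h3
  simp only [bs, if_true, mul_one, Bool.false_eq_true, if_false, mul_neg]
  linarith

theorem pow_le_cosh (x : ℝ) (j : ℕ) : x ^ (2 * j) ≤ (2 * j).factorial * Real.cosh x := by
  have h := le_hasSum (Real.hasSum_cosh x) j fun i _ => by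
    have : 0 ≤ x ^ (2 * i) := (even_two_mul i).pow_nonneg x
    positivity
  have h2 : (0 : ℝ) < (2 * j).factorial := by exact_mod_cast Nat.factorial_pos _
  rw [div_le_iff₀ h2] at h
  linarith

theorem cube_moment (c : ι → ℝ) (j : ℕ) :
    ∑ z : ι → Bool, (∑ i, c i * bs (z i)) ^ (2 * j)
      ≤ 2 ^ Fintype.card ι * ((2 * j).factorial * Real.exp ((∑ i, c i ^ 2) / 2)) := by
  have h1 : ∑ z : ι → Bool, (∑ i, c i * bs (z i)) ^ (2 * j)
      ≤ ∑ z : ι → Bool, (2 * j).factorial * Real.cosh (∑ i, c i * bs (z i)) :=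
    Finset.sum_le_sum fun z _ => pow_le_cosh _ _
  refine h1.trans ?_
  rw [← Finset.mul_sum]
  have h2 : ∑ z : ι → Bool, Real.cosh (∑ i, c i * bs (z i))
      ≤ 2 ^ Fintype.card ι * Real.exp ((∑ i, c i ^ 2) / 2) := by
    have h3 := cube_exp c
    have h4 := cube_exp (fun i => - c i)
    simp only [neg_sq, neg_mul, Finset.sum_neg_distrib] at h4
    have h5 : ∑ z : ι → Bool, Real.cosh (∑ i, c i * bs (z i))
        = (∑ z : ι → Bool, Real.exp (∑ i, c i * bs (z i))
          + ∑ z : ι → Bool, Real.exp (-∑ i, c i * bs (z i))) / 2 := by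
      rw [← Finset.sum_add_distrib, Finset.sum_div]
      exact Finset.sum_congr rfl fun z _ => Real.cosh_eq _
    rw [h5]
    linarith
  calc ((2 * j).factorial : ℝ) * ∑ z : ι → Bool, Real.cosh (∑ i, c i * bs (z i))
      ≤ (2 * j).factorial * (2 ^ Fintype.card ι * Real.exp ((∑ i, c i ^ 2) / 2)) :=
        mul_le_mul_of_nonneg_left h2 (by positivity)
    _ = _ := by ring

end

/-- **Khintchine's inequality** for `2j`-wise independent signs, with explicit constants. -/
theorem khintchine {ι : Type*} [Fintype ι] {Ω : Type*} [Fintype Ω] (s : Ω → ι → ℝ)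
    (hs : ∀ ω i, s ω i = 1 ∨ s ω i = -1) (j : ℕ) (hj : 0 < j)
    (hind : ∀ U : Finset ι, U.Nonempty → U.card ≤ 2 * j → ∑ ω, ∏ i ∈ U, s ω i = 0)
    (c : ι → ℝ) :
    ∑ ω, (∑ i, c i * s ω i) ^ (2 * j)
      ≤ Fintype.card Ω * ((2 * j).factorial * (Real.exp 1 / (2 * j)) ^ j * (∑ i, c i ^ 2) ^ j) := by
  classical
  have hcube := moment_eq (Ω := ι → Bool) (fun z i => bs (z i)) (fun z i => bs_sign _) (2 * j)
    (fun U hU _ => cube_ind U hU)
  rcases eq_or_ne (∑ i, c i ^ 2) 0 with h0 | h0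
  · have h1 : ∀ i, c i = 0 := by
      intro i
      have := (Finset.sum_eq_zero_iff_of_nonneg fun i _ => sq_nonneg (c i)).1 h0 i (mem_univ i)
      exact pow_eq_zero_iff two_ne_zero |>.1 this
    simp only [h1, zero_mul, Finset.sum_const_zero]
    rw [zero_pow (by omega)]
    simp only [Finset.sum_const_zero]
    positivity
  · have hpos : 0 < ∑ i, c i ^ 2 := lt_of_le_of_ne (Finset.sum_nonneg fun i _ => sq_nonneg _)
      (Ne.symm h0)
    set N : ℝ := ∑ i, c i ^ 2 with hN
    have hj' : (0 : ℝ) < 2 * j := by positivity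
    set lam : ℝ := Real.sqrt (2 * j / N) with hlam
    have hlam2 : lam ^ 2 = 2 * j / N := Real.sq_sqrt (by positivity)
    have h1 := cube_moment (fun i => lam * c i) j
    have h2 : ∑ i, (lam * c i) ^ 2 = 2 * j := by
      rw [Finset.sum_congr rfl fun i _ => mul_pow lam (c i) 2, ← Finset.mul_sum, ← hN, hlam2]
      field_simp
    rw [h2] at h1
    have h3 : ∀ z : ι → Bool, (∑ i, lam * c i * bs (z i)) ^ (2 * j)
        = (2 * j / N) ^ j * (∑ i, c i * bs (z i)) ^ (2 * j) := by
      intro z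
      rw [← hlam2, ← pow_mul, ← mul_pow, Finset.mul_sum]
      congr 1
      exact Finset.sum_congr rfl fun i _ => by ring
    rw [Finset.sum_congr rfl fun z _ => h3 z, ← Finset.mul_sum] at h1
    have h4 := hcube c
    rw [h4, Fintype.card_fun, Fintype.card_bool] at h1
    rw [moment_eq s hs (2 * j) hind c]
    set Q : ℝ := ∑ f : Fin (2 * j) → ι, (∏ l, c (f l)) * (if oddSet f = ∅ then 1 else 0) with hQ
    push_cast at h1
    have h5 : (2 * (j : ℝ) / N) ^ j * Q ≤ (2 * j).factorial * Real.exp 1 ^ j := by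
      have h6 : (2 : ℝ) ^ Fintype.card ι * ((2 * (j : ℝ) / N) ^ j * Q)
          ≤ 2 ^ Fintype.card ι * ((2 * j).factorial * Real.exp 1 ^ j) := by
        have h7 : Real.exp (2 * (j : ℝ) / 2) = Real.exp 1 ^ j := by
          rw [← Real.exp_nat_mul]
          congr 1
          ring
        rw [h7] at h1
        calc (2 : ℝ) ^ Fintype.card ι * ((2 * (j : ℝ) / N) ^ j * Q)
            = (2 * (j : ℝ) / N) ^ j * (2 ^ Fintype.card ι * Q) := by ring
          _ ≤ _ := h1
      exact le_of_mul_le_mul_left h6 (by positivity)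
    refine mul_le_mul_of_nonneg_left ?_ (by positivity)
    have h8 : (0 : ℝ) < (2 * (j : ℝ) / N) ^ j := by positivity
    rw [← mul_le_mul_iff_right₀ h8]
    refine h5.trans (le_of_eq ?_)
    have h9 : (2 * (j : ℝ) / N) ^ j * (((2 * j).factorial : ℝ) * (Real.exp 1 / (2 * j)) ^ j * N ^ j)
        = (2 * j).factorial * ((2 * (j : ℝ) / N) * (Real.exp 1 / (2 * j)) * N) ^ j := by
      rw [mul_pow, mul_pow]
      ring
    rw [h9]
    congr 2
    field_simp

end Vale.Agent.P318.H508
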