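import Vale.Agent.P318.H508.Tri
import Vale.Agent.P318.H508.Khin
import Vale.Agent.P318.H508.Four

/-!
# Most codewords are good
-/

open Finset

namespace Vale.Agent.P318.H508

/-- Sign of a bit. -/
def sg (b : ZMod 2) : ℝ := if b = 0 then 1 else -1

theorem sg_or (b : ZMod 2) : sg b = 1 ∨ sg b = -1 := by
  unfold sg
  split_ifs
  · exact Or.inl rfl
  · exact Or.inr rfl

theorem sg_add (a b : ZMod 2) : sg (a + b) = sg a * sg b := by
  have h : ∀ a b : ZMod 2, (a = 0 ∧ b = 0 ∧ a + b = 0) ∨ (a = 0 ∧ b ≠ 0 ∧ a + b ≠ 0) ∨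
      (a ≠ 0 ∧ b = 0 ∧ a + b ≠ 0) ∨ (a ≠ 0 ∧ b ≠ 0 ∧ a + b = 0) := by decide
  unfold sg
  rcases h a b with ⟨h1, h2, h3⟩ | ⟨h1, h2, h3⟩ | ⟨h1, h2, h3⟩ | ⟨h1, h2, h3⟩
  · rw [if_pos h1, if_pos h2, if_pos h3, mul_one]
  · rw [if_pos h1, if_neg h2, if_neg h3, one_mul]
  · rw [if_neg h1, if_pos h2, if_neg h3, mul_one]
  · rw [if_neg h1, if_neg h2, if_pos h3]
    norm_num

/-- Sign function of a codeword. -/
def sgv {X : Type*} (v : X → ZMod 2) : X → ℝ := fun y => sg (v y)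

theorem sgv_sign {X : Type*} (v : X → ZMod 2) : IsSign (sgv v) := fun y => sg_or (v y)

theorem sg_sum {X : Type*} (U : Finset X) (v : X → ZMod 2) :
    ∏ x ∈ U, sg (v x) = sg (∑ x ∈ U, v x) := by
  classical
  induction U using Finset.induction_on with
  | empty => simp [sg]
  | insert a U ha ih => rw [Finset.prod_insert ha, Finset.sum_insert ha, sg_add, ih]

theorem sum_sg_zero {X : Type*} {V : Submodule (ZMod 2) (X → ZMod 2)} [Fintype V]
    (l : (X → ZMod 2) → ZMod 2) (hl : ∀ a b, l (a + b) = l a + l b) {v0 : X → ZMod 2}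
    (hv0 : v0 ∈ V) (h : l v0 ≠ 0) : ∑ v : V, sg (l v) = 0 := by
  have h1 : ∑ v : V, sg (l v) = ∑ v : V, sg (l ((v + ⟨v0, hv0⟩ : V) : X → ZMod 2)) :=
    (Fintype.sum_equiv (Equiv.addRight (⟨v0, hv0⟩ : V)) _ _ fun v => rfl).symm
  have h2 : ∀ v : V, sg (l ((v + ⟨v0, hv0⟩ : V) : X → ZMod 2)) = - sg (l v) := by
    intro v
    rw [Submodule.coe_add, hl, sg_add]
    have h3 : sg (l v0) = -1 := by
      unfold sg
      rw [if_neg h]
    rw [h3]
    ring
  rw [Finset.sum_congr rfl fun v _ => h2 v, Finset.sum_neg_distrib] at h1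
  linarith

theorem markov {Ω : Type*} [Fintype Ω] (f : Ω → ℝ) (hf : ∀ v, 0 ≤ f v) (T : ℝ)
    [DecidablePred fun v => T < f v] :
    ((univ.filter fun v => T < f v).card : ℝ) * T ≤ ∑ v, f v := by
  calc ((univ.filter fun v => T < f v).card : ℝ) * T
      = ∑ v ∈ univ.filter (fun v => T < f v), T := by rw [Finset.sum_const, nsmul_eq_mul]
    _ ≤ ∑ v ∈ univ.filter (fun v => T < f v), f v :=
        Finset.sum_le_sum fun v hv => (mem_filter.1 hv).2.le
    _ ≤ ∑ v, f v := Finset.sum_le_sum_of_subset_of_nonneg (Finset.subset_univ _)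
        fun v _ _ => hf v

variable {X : Type*} [AddCommGroup X] [Fintype X]

theorem ind_sg {V : Submodule (ZMod 2) (X → ZMod 2)} [Fintype V] {k : ℕ}
    (hind : ∀ U : Finset X, U.Nonempty → U.card ≤ k → ∃ v ∈ V, ∑ x ∈ U, v x ≠ 0)
    (U : Finset X) (hU : U.Nonempty) (hk : U.card ≤ k) :
    ∑ v : V, ∏ x ∈ U, sg (v.1 x) = 0 := by
  obtain ⟨v0, hv0, h⟩ := hind U hU hk
  rw [Finset.sum_congr rfl fun v _ => sg_sum U v.1]
  exact sum_sg_zero (fun v => ∑ x ∈ U, v x)
    (fun a b => by simp [Finset.sum_add_distrib]) hv0 h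

/-- High moments of the Fourier coefficients. -/
theorem char_moment (hexp : ∀ x : X, x + x = 0) {V : Submodule (ZMod 2) (X → ZMod 2)}
    [Fintype V] {κ : ℕ} (hκ0 : 0 < κ)
    (hind : ∀ U : Finset X, U.Nonempty → U.card ≤ 2 * κ → ∃ v ∈ V, ∑ x ∈ U, v x ≠ 0)
    (ψ : AddChar X ℂ) :
    ∑ v : V, (∑ z, sgv v.1 z * chi ψ z) ^ (2 * κ)
      ≤ Fintype.card V * ((25 / 4) * κ * Fintype.card X) ^ κ := by
  have h1 := khintchine (fun (v : V) (z : X) => sg (v.1 z)) (fun v z => sg_or _) κ hκ0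
    (fun U hU hk => ind_sg hind U hU hk) (fun z => chi ψ z)
  have h2 : ∑ z, chi ψ z ^ 2 = (Fintype.card X : ℝ) := by
    rw [Finset.sum_congr rfl fun z _ => (by
      rcases chi_sign hexp ψ z with h | h <;> rw [h] <;> norm_num : chi ψ z ^ 2 = 1)]
    simp
  rw [h2] at h1
  have h3 : ∀ v : V, (∑ z, sgv v.1 z * chi ψ z) ^ (2 * κ)
      = (∑ z, chi ψ z * sg (v.1 z)) ^ (2 * κ) := by
    intro v
    congr 1
    exact Finset.sum_congr rfl fun z _ => mul_comm _ _
  rw [Finset.sum_congr rfl fun v _ => h3 v]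
  refine h1.trans (mul_le_mul_of_nonneg_left ?_ (by positivity))
  have h4 : ((2 * κ).factorial : ℝ) ≤ (2 * κ : ℝ) ^ (2 * κ) := by
    exact_mod_cast Nat.factorial_le_pow (2 * κ)
  have hκ : (0 : ℝ) < κ := by exact_mod_cast hκ0
  calc ((2 * κ).factorial : ℝ) * (Real.exp 1 / (2 * κ)) ^ κ * (Fintype.card X : ℝ) ^ κ
      ≤ (2 * κ : ℝ) ^ (2 * κ) * (Real.exp 1 / (2 * κ)) ^ κ * (Fintype.card X : ℝ) ^ κ := by
        gcongr
    _ = (2 * Real.exp 1 * κ * Fintype.card X) ^ κ := by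
        rw [pow_mul, ← mul_pow, ← mul_pow]
        congr 1
        field_simp
    _ ≤ _ := by
        have h5 := Real.exp_one_lt_d9
        gcongr
        linarith

/-- Fourth moment of a correlation with a fixed sign function. -/
theorem corr_moment {V : Submodule (ZMod 2) (X → ZMod 2)}
    [Fintype V] (hind : ∀ U : Finset X, U.Nonempty → U.card ≤ 4 → ∃ v ∈ V, ∑ x ∈ U, v x ≠ 0)
    {u : X → ℝ} (hu : IsSign u) (x : X) :
    ∑ v : V, ip u (sh x (sgv v.1)) ^ 4 ≤ Fintype.card V * (12 / (Fintype.card X : ℝ) ^ 2) := by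
  have hX := card_pos' (X := X)
  set N : ℝ := (Fintype.card X : ℝ) with hN
  have h1 := khintchine (fun (v : V) (z : X) => sg (v.1 z)) (fun v z => sg_or _) 2 (by norm_num)
    (fun U hU hk => ind_sg hind U hU (by omega)) (fun z => u (z + -x) / N)
  have h2 : ∑ z, (u (z + -x) / N) ^ 2 = 1 / N := by
    rw [Finset.sum_congr rfl fun z _ => (by
      rw [div_pow, hu.sq] : (u (z + -x) / N) ^ 2 = 1 / N ^ 2)]
    rw [Finset.sum_const, Finset.card_univ, nsmul_eq_mul, ← hN]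
    field_simp
  rw [h2] at h1
  have h3 : ∀ v : V, ip u (sh x (sgv v.1)) ^ 4
      = (∑ z, u (z + -x) / N * sg (v.1 z)) ^ (2 * 2) := by
    intro v
    congr 1
    have h4 : ip u (sh x (sgv v.1)) = ip (sh (-x) u) (sgv v.1) := by
      rw [ip_sh_left, neg_neg]
    rw [h4]
    unfold ip sh sgv
    rw [Finset.sum_div]
    exact Finset.sum_congr rfl fun z _ => by rw [← hN]; ring
  rw [Finset.sum_congr rfl fun v _ => h3 v]
  refine h1.trans (mul_le_mul_of_nonneg_left ?_ (by positivity))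
  have h5 := Real.exp_one_lt_d9
  have h6 := Real.exp_pos 1
  have h7 : ((2 * 2).factorial : ℝ) = 24 := by norm_num [Nat.factorial]
  rw [h7]
  have h8 : (Real.exp 1 / (2 * ((2 : ℕ) : ℝ))) ^ 2 ≤ 1 / 2 := by
    have h9 : Real.exp 1 / (2 * ((2 : ℕ) : ℝ)) ≤ 0.68 := by
      rw [div_le_iff₀ (by norm_num)]
      norm_num
      linarith
    have h10 : 0 ≤ Real.exp 1 / (2 * ((2 : ℕ) : ℝ)) := by positivity
    nlinarith
  calc 24 * (Real.exp 1 / (2 * ((2 : ℕ) : ℝ))) ^ 2 * (1 / N) ^ 2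
      ≤ 24 * (1 / 2) * (1 / N) ^ 2 := by gcongr
    _ = 12 / N ^ 2 := by ring

/-- Fourth moment of an autocorrelation. -/
theorem auto_moment (hexp : ∀ x : X, x + x = 0) {V : Submodule (ZMod 2) (X → ZMod 2)}
    [Fintype V] (hind : ∀ U : Finset X, U.Nonempty → U.card ≤ 8 → ∃ v ∈ V, ∑ x ∈ U, v x ≠ 0)
    {x : X} (hx : x ≠ 0) :
    ∑ v : V, ip (sgv v.1) (sh x (sgv v.1)) ^ 4
      ≤ Fintype.card V * (48 / (Fintype.card X : ℝ) ^ 2) := by
  classical
  have hX := card_pos' (X := X)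
  set N : ℝ := (Fintype.card X : ℝ) with hN
  obtain ⟨ψ, hψ⟩ := AddChar.exists_apply_ne_zero.2 hx
  have hψx : chi ψ x = -1 := by
    rcases chi_spec hexp ψ x with h | h
    · exact absurd h.1 hψ
    · exact h.2
  -- half of the group
  let Y : Type _ := {y : X // chi ψ y = 1}
  have hsum : ∀ F : X → ℝ, (∀ y, F (y + x) = F y) → ∑ y, F y = 2 * ∑ y : Y, F y.1 := by
    intro F hF
    have h1 : ∑ y : Y, F y.1 = ∑ y ∈ univ.filter (fun y => chi ψ y = 1), F y :=
      (Finset.sum_subtype (univ.filter (fun y => chi ψ y = 1)) (fun y => by simp) F).symm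
    have h2 : ∑ y ∈ univ.filter (fun y => ¬ chi ψ y = 1), F y
        = ∑ y ∈ univ.filter (fun y => chi ψ y = 1), F y := by
      refine Finset.sum_bij' (fun y _ => y + x) (fun y _ => y + x) ?_ ?_ ?_ ?_ ?_
      · intro y hy
        rw [mem_filter] at hy ⊢
        refine ⟨mem_univ _, ?_⟩
        rw [chi_add hexp, hψx]
        rcases chi_sign hexp ψ y with h | h
        · exact absurd h hy.2
        · rw [h]; norm_num
      · intro y hy
        rw [mem_filter] at hy ⊢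
        refine ⟨mem_univ _, ?_⟩
        rw [chi_add hexp, hψx, hy.2]
        norm_num
      · intro y _
        rw [add_assoc, hexp, add_zero]
      · intro y _
        rw [add_assoc, hexp, add_zero]
      · intro y _
        rw [hF]
    rw [← Finset.sum_filter_add_sum_filter_not univ (fun y => chi ψ y = 1) F, h2, ← h1]
    ring
  have hcardY : (Fintype.card Y : ℝ) = N / 2 := by
    have h1 := hsum (fun _ => 1) fun _ => rfl
    simp only [Finset.sum_const, Finset.card_univ, nsmul_eq_mul, mul_one] at h1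
    rw [← hN] at h1
    linarith
  have h1 := khintchine (fun (v : V) (y : Y) => sg (v.1 y.1) * sg (v.1 (y.1 + x)))
    (fun v y => by
      rw [← sg_add]
      exact sg_or _) 2 (by norm_num) (fun U hU hk => by
      have hk4 : U.card ≤ 4 := by omega
      set U1 : Finset X := U.image (fun y => y.1) with hU1
      set U2 : Finset X := U.image (fun y => y.1 + x) with hU2
      have hinj1 : Set.InjOn (fun y : Y => y.1) (U : Set Y) := fun a _ b _ h => Subtype.ext h
      have hinj2 : Set.InjOn (fun y : Y => y.1 + x) (U : Set Y) := fun a _ b _ h =>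
        Subtype.ext (add_right_cancel h)
      have hdisj : Disjoint U1 U2 := by
        rw [Finset.disjoint_left]
        intro z hz1 hz2
        obtain ⟨a, _, rfl⟩ := mem_image.1 hz1
        obtain ⟨b, _, hb⟩ := mem_image.1 hz2
        have h2 := congrArg (chi ψ) hb
        rw [chi_add hexp, hψx, b.2, a.2] at h2
        norm_num at h2
      have hcard : (U1 ∪ U2).card ≤ 8 := by
        rw [Finset.card_union_of_disjoint hdisj]
        have h3 : U1.card ≤ U.card := card_image_le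
        have h4 : U2.card ≤ U.card := card_image_le
        omega
      have hne : (U1 ∪ U2).Nonempty := (hU.image _).mono Finset.subset_union_left
      have h5 := ind_sg hind (U1 ∪ U2) hne hcard
      refine Eq.trans (Finset.sum_congr rfl fun v _ => ?_) h5
      rw [Finset.prod_mul_distrib, Finset.prod_union hdisj, hU1, hU2,
        Finset.prod_image hinj1, Finset.prod_image hinj2])
    (fun _ => 2 / N)
  have h2 : ∑ _z : Y, (2 / N) ^ 2 = 2 / N := by
    rw [Finset.sum_const, Finset.card_univ, nsmul_eq_mul, hcardY]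
    field_simp
  rw [h2] at h1
  have h3 : ∀ v : V, ip (sgv v.1) (sh x (sgv v.1)) ^ 4
      = (∑ y : Y, 2 / N * (sg (v.1 y.1) * sg (v.1 (y.1 + x)))) ^ (2 * 2) := by
    intro v
    congr 1
    unfold ip sh sgv
    rw [hsum (fun y => sg (v.1 y) * sg (v.1 (y + x))) (fun y => by
      rw [add_assoc, hexp, add_zero, mul_comm]), ← Finset.mul_sum, ← hN]
    ring
  rw [Finset.sum_congr rfl fun v _ => h3 v]
  refine h1.trans (mul_le_mul_of_nonneg_left ?_ (by positivity))
  have h5 := Real.exp_one_lt_d9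
  have h6 := Real.exp_pos 1
  have h7 : ((2 * 2).factorial : ℝ) = 24 := by norm_num [Nat.factorial]
  rw [h7]
  have h8 : (Real.exp 1 / (2 * ((2 : ℕ) : ℝ))) ^ 2 ≤ 1 / 2 := by
    have h9 : Real.exp 1 / (2 * ((2 : ℕ) : ℝ)) ≤ 0.68 := by
      rw [div_le_iff₀ (by norm_num)]
      norm_num
      linarith
    have h10 : 0 ≤ Real.exp 1 / (2 * ((2 : ℕ) : ℝ)) := by positivity
    nlinarith
  calc 24 * (Real.exp 1 / (2 * ((2 : ℕ) : ℝ))) ^ 2 * (2 / N) ^ 2
      ≤ 24 * (1 / 2) * (2 / N) ^ 2 := by gcongr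
    _ = 48 / N ^ 2 := by ring

/-- The number of bad codewords. -/
theorem bad_card (hexp : ∀ x : X, x + x = 0) {V : Submodule (ZMod 2) (X → ZMod 2)}
    [Fintype V] {κ s : ℕ} (hκ : Fintype.card X = 2 ^ κ) (hκs : 2 * s + 40 ≤ κ)
    (hind : ∀ U : Finset X, U.Nonempty → U.card ≤ 2 * κ → ∃ v ∈ V, ∑ x ∈ U, v x ≠ 0)
    [DecidablePred fun v : V => ¬ Good (50 * κ) (sgv v.1)] :
    ((univ.filter fun v : V => ¬ Good (50 * κ) (sgv v.1)).card : ℝ)
      ≤ Fintype.card V / (64 * 4 ^ s) := by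
  classical
  have hX := card_pos' (X := X)
  set N : ℝ := (Fintype.card X : ℝ) with hN
  set m : ℝ := (Fintype.card V : ℝ) with hm
  have hm0 : 0 ≤ m := by rw [hm]; positivity
  have hN2 : N = 2 ^ κ := by rw [hN, hκ]; push_cast; rfl
  have hκ0 : 0 < κ := by omega
  have hκ0' : (0 : ℝ) < κ := by exact_mod_cast hκ0
  set A : AddChar X ℂ → Finset V := fun ψ =>
    univ.filter fun v : V => (50 * κ * N) ^ κ < (∑ z, sgv v.1 z * chi ψ z) ^ (2 * κ) with hA
  set B : X → Finset V := fun x => univ.filter fun v : V =>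
    (1 / 100) ^ 4 < ip (sgv v.1) (sh x (sgv v.1)) ^ 4 with hB
  have hsub : (univ.filter fun v : V => ¬ Good (50 * κ) (sgv v.1))
      ⊆ (univ.biUnion A) ∪ ((univ.erase (0 : X)).biUnion B) := by
    intro v hv
    rw [mem_filter] at hv
    by_contra hcon
    rw [Finset.mem_union, not_or] at hcon
    refine hv.2 ⟨sgv_sign _, ?_, ?_⟩
    · intro x hx
      by_contra h
      push Not at h
      refine hcon.2 (mem_biUnion.2 ⟨x, mem_erase.2 ⟨hx, mem_univ _⟩, ?_⟩)
      rw [hB, mem_filter]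
      refine ⟨mem_univ _, ?_⟩
      have h2 : ip (sgv v.1) (sh x (sgv v.1)) ^ 4 = |ip (sgv v.1) (sh x (sgv v.1))| ^ 4 := by
        rw [(by decide : Even 4).pow_abs]
      rw [h2]
      exact pow_lt_pow_left₀ h (by norm_num) (by norm_num)
    · intro u hu
      refine conv_bound hexp (fun ψ => ?_) hu
      by_contra h
      push Not at h
      refine hcon.1 (mem_biUnion.2 ⟨ψ, mem_univ _, ?_⟩)
      rw [hA, mem_filter]
      refine ⟨mem_univ _, ?_⟩
      rw [pow_mul]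
      exact pow_lt_pow_left₀ h (by positivity) (by omega)
  have hAcard : ∀ ψ, ((A ψ).card : ℝ) ≤ m / 8 ^ κ := by
    intro ψ
    have h1 := markov (fun v : V => (∑ z, sgv v.1 z * chi ψ z) ^ (2 * κ))
      (fun v => (even_two_mul κ).pow_nonneg _) ((50 * κ * N) ^ κ)
    have h2 := char_moment hexp hκ0 hind ψ
    have h3 : (0 : ℝ) < ((25 / 4) * κ * N) ^ κ := by positivity
    have h4 : (50 * κ * N : ℝ) ^ κ = 8 ^ κ * ((25 / 4) * κ * N) ^ κ := by
      rw [← mul_pow]
      congr 1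
      ring
    rw [le_div_iff₀ (by positivity)]
    have h5 : ((A ψ).card : ℝ) * 8 ^ κ * ((25 / 4) * κ * N) ^ κ
        ≤ m * ((25 / 4) * κ * N) ^ κ := by
      calc ((A ψ).card : ℝ) * 8 ^ κ * ((25 / 4) * κ * N) ^ κ
          = ((A ψ).card : ℝ) * (50 * κ * N) ^ κ := by rw [h4]; ring
        _ ≤ _ := h1.trans h2
    exact le_of_mul_le_mul_right h5 h3
  have hBcard : ∀ x ∈ univ.erase (0 : X), ((B x).card : ℝ) ≤ m * (48 * 10 ^ 8) / N ^ 2 := by
    intro x hx
    have h1 := markov (fun v : V => ip (sgv v.1) (sh x (sgv v.1)) ^ 4)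
      (fun v => (by decide : Even 4).pow_nonneg _) ((1 / 100) ^ 4)
    have h2 := auto_moment hexp
      (fun U hU hk => hind U hU (by omega)) (mem_erase.1 hx).1
    have h3 : ((B x).card : ℝ) * (1 / 100) ^ 4 ≤ m * (48 / N ^ 2) := h1.trans h2
    calc ((B x).card : ℝ) = 10 ^ 8 * (((B x).card : ℝ) * (1 / 100) ^ 4) := by ring
      _ ≤ 10 ^ 8 * (m * (48 / N ^ 2)) := mul_le_mul_of_nonneg_left h3 (by norm_num)
      _ = _ := by ring
  have h1 : ((univ.filter fun v : V => ¬ Good (50 * κ) (sgv v.1)).card : ℝ)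
      ≤ ∑ ψ : AddChar X ℂ, ((A ψ).card : ℝ) + ∑ x ∈ univ.erase (0 : X), ((B x).card : ℝ) := by
    have h2 := (card_le_card hsub).trans (card_union_le _ _)
    have h3 : (univ.biUnion A).card ≤ ∑ ψ : AddChar X ℂ, (A ψ).card := card_biUnion_le
    have h4 : ((univ.erase (0 : X)).biUnion B).card ≤ ∑ x ∈ univ.erase (0 : X), (B x).card :=
      card_biUnion_le
    have h5 := h2.trans (add_le_add h3 h4)
    exact_mod_cast h5
  have h2 : ∑ ψ : AddChar X ℂ, ((A ψ).card : ℝ) ≤ N * (m / 8 ^ κ) := by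
    calc _ ≤ ∑ ψ : AddChar X ℂ, m / 8 ^ κ := Finset.sum_le_sum fun ψ _ => hAcard ψ
      _ = _ := by
        rw [Finset.sum_const, Finset.card_univ, nsmul_eq_mul, AddChar.card_eq]
  have h3 : ∑ x ∈ univ.erase (0 : X), ((B x).card : ℝ) ≤ N * (m * (48 * 10 ^ 8) / N ^ 2) := by
    calc _ ≤ ∑ x ∈ univ.erase (0 : X), m * (48 * 10 ^ 8) / N ^ 2 :=
          Finset.sum_le_sum hBcard
      _ = ((univ.erase (0 : X)).card : ℝ) * (m * (48 * 10 ^ 8) / N ^ 2) := by
          rw [Finset.sum_const, nsmul_eq_mul]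
      _ ≤ _ := by
          refine mul_le_mul_of_nonneg_right ?_ (by positivity)
          rw [hN]
          exact_mod_cast (Finset.card_erase_le.trans (by rw [Finset.card_univ]))
  have h4 : N * (m / 8 ^ κ) = m / 4 ^ κ := by
    rw [hN2, (by norm_num : (8 : ℝ) = 2 * 4), mul_pow]
    field_simp
  have h5 : N * (m * (48 * 10 ^ 8) / N ^ 2) = m * (48 * 10 ^ 8) / 2 ^ κ := by
    rw [hN2]
    field_simp
  rw [h4] at h2
  rw [h5] at h3
  have h6 : (2 : ℝ) ^ (2 * s + 40) ≤ 2 ^ κ := pow_le_pow_right₀ (by norm_num) hκs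
  have h7 : (2 : ℝ) ^ (2 * s + 40) = 4 ^ s * 2 ^ 40 := by
    rw [pow_add, pow_mul]
    norm_num
  rw [h7] at h6
  have h8 : (2 : ℝ) ^ κ ≤ 4 ^ κ := pow_le_pow_left₀ (by norm_num) (by norm_num) _
  have h9 : m / 4 ^ κ ≤ m / (4 ^ s * 2 ^ 40) :=
    div_le_div_of_nonneg_left hm0 (by positivity) (h6.trans h8)
  have h10 : m * (48 * 10 ^ 8) / 2 ^ κ ≤ m * (48 * 10 ^ 8) / (4 ^ s * 2 ^ 40) :=
    div_le_div_of_nonneg_left (by positivity) (by positivity) h6
  have h11 : m / (4 ^ s * 2 ^ 40) + m * (48 * 10 ^ 8) / (4 ^ s * 2 ^ 40) ≤ m / (64 * 4 ^ s) := by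
    rw [← add_div, div_le_div_iff₀ (by positivity) (by positivity)]
    have h12 : 0 ≤ m * 4 ^ s := by positivity
    nlinarith
  linarith

end Vale.Agent.P318.H508
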