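import Mathlib
import Vale.Agent.P318.H867.Defs

/-!
# The Goemans–Linial kernel: elementary facts on sign functions

`X` is a finite additive group; sign functions are functions `X → ℝ` with values `1, -1`.
-/

open Finset
open Vale.Agent.P318.H867

namespace Vale.Agent.P318.H508

/-- Vectors of any real inner product space can be moved to `ℝ^V` with all distances kept. -/
theorem exists_euclid {V : Type*} [Fintype V] [DecidableEq V] {E : Type*}
    [NormedAddCommGroup E] [InnerProductSpace ℝ E] (w : V → E) :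
    ∃ x : V → EuclideanSpace ℝ V, ∀ i j, ‖x i - x j‖ = ‖w i - w j‖ := by
  classical
  set S : Submodule ℝ E := Submodule.span ℝ (Set.range w) with hS
  have : FiniteDimensional ℝ S := FiniteDimensional.span_of_finite ℝ (Set.finite_range w)
  have hn : Module.finrank ℝ S ≤ Fintype.card V := finrank_range_le_card w
  obtain ⟨e⟩ : Nonempty (Fin (Module.finrank ℝ S) ↪ V) :=
    Function.Embedding.nonempty_of_card_le (by simpa using hn)
  have hmem : ∀ i, w i ∈ S := fun i => Submodule.subset_span ⟨i, rfl⟩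
  let b := stdOrthonormalBasis ℝ S
  let c : V → Fin (Module.finrank ℝ S) → ℝ := fun i k => b.repr ⟨w i, hmem i⟩ k
  refine ⟨fun i => WithLp.toLp 2 (Function.extend e (c i) 0), fun i j => ?_⟩
  have h1 : ‖w i - w j‖ ^ 2 = ∑ k, (c i k - c j k) ^ 2 := by
    have h2 : ‖w i - w j‖ = ‖b.repr (⟨w i, hmem i⟩ - ⟨w j, hmem j⟩ : S)‖ := by
      rw [LinearIsometryEquiv.norm_map]
      rfl
    rw [h2, EuclideanSpace.norm_sq_eq]
    refine Finset.sum_congr rfl fun k _ => ?_
    rw [map_sub, Real.norm_eq_abs, sq_abs]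
    rfl
  have h3 : ‖(WithLp.toLp 2 (Function.extend e (c i) 0) : EuclideanSpace ℝ V)
      - WithLp.toLp 2 (Function.extend e (c j) 0)‖ ^ 2 = ∑ k, (c i k - c j k) ^ 2 := by
    rw [EuclideanSpace.norm_sq_eq]
    have h4 : ∀ v : V, ‖((WithLp.toLp 2 (Function.extend e (c i) 0) : EuclideanSpace ℝ V)
      - WithLp.toLp 2 (Function.extend e (c j) 0)) v‖ ^ 2
      = (Function.extend e (c i) 0 v - Function.extend e (c j) 0 v) ^ 2 := by
      intro v
      rw [Real.norm_eq_abs, sq_abs]
      rfl
    rw [Finset.sum_congr rfl fun v _ => h4 v]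
    rw [← Finset.sum_subset (Finset.subset_univ (Finset.univ.map e))]
    · rw [Finset.sum_map]
      refine Finset.sum_congr rfl fun k _ => ?_
      rw [e.injective.extend_apply, e.injective.extend_apply]
    · intro v _ hv
      have hv' : ¬ ∃ k, e k = v := by
        rintro ⟨k, rfl⟩
        exact hv (Finset.mem_map_of_mem e (Finset.mem_univ k))
      rw [Function.extend_apply' _ _ _ hv', Function.extend_apply' _ _ _ hv']
      simp
  have h5 : ‖(WithLp.toLp 2 (Function.extend e (c i) 0) : EuclideanSpace ℝ V)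
      - WithLp.toLp 2 (Function.extend e (c j) 0)‖ ^ 2 = ‖w i - w j‖ ^ 2 := by rw [h3, h1]
  exact (pow_left_inj₀ (norm_nonneg _) (norm_nonneg _) two_ne_zero).1 h5

/-- Squared distances of vectors in any real inner product space which satisfy the triangle
inequalities form a negative type semimetric. -/
theorem negType_of_inner {V : Type*} [Fintype V] [DecidableEq V] {E : Type*}
    [NormedAddCommGroup E] [InnerProductSpace ℝ E] (w : V → E) (d : V → V → ℝ)
    (hd : ∀ i j, d i j = ‖w i - w j‖ ^ 2) (htri : ∀ i j k, d i k ≤ d i j + d j k) :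
    IsNegTypeSemimetric d := by
  obtain ⟨x, hx⟩ := exists_euclid w
  exact ⟨⟨x, fun i j => by rw [hd, hx]⟩, htri⟩

section

variable {X : Type*} [Fintype X]

/-- Normalised inner product. -/
noncomputable def ip (a b : X → ℝ) : ℝ := (∑ y, a y * b y) / Fintype.card X

/-- Sign functions. -/
def IsSign (a : X → ℝ) : Prop := ∀ y, a y = 1 ∨ a y = -1

theorem IsSign.mul_self {a : X → ℝ} (ha : IsSign a) (y : X) : a y * a y = 1 := by
  rcases ha y with h | h <;> rw [h] <;> norm_num

theorem IsSign.sq {a : X → ℝ} (ha : IsSign a) (y : X) : a y ^ 2 = 1 := by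
  rcases ha y with h | h <;> rw [h] <;> norm_num

theorem ip_comm (a b : X → ℝ) : ip a b = ip b a := by
  unfold ip
  congr 1
  exact Finset.sum_congr rfl fun y _ => mul_comm _ _

variable [Nonempty X]

theorem card_pos' : (0 : ℝ) < Fintype.card X := by
  exact_mod_cast Fintype.card_pos

theorem ip_self {a : X → ℝ} (ha : IsSign a) : ip a a = 1 := by
  unfold ip
  rw [Finset.sum_congr rfl fun y _ => ha.mul_self y]
  have := card_pos' (X := X)
  simp

/-- The basic inequality: `|⟨a,b⟩| + |⟨b,c⟩| ≤ 1 + |⟨a,c⟩|`. -/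
theorem ip_tri {a b c : X → ℝ} (ha : IsSign a) (hb : IsSign b) (hc : IsSign c) :
    |ip a b| + |ip b c| ≤ 1 + |ip a c| := by
  have hX := card_pos' (X := X)
  have key : ∀ p q : ℝ, (p = 1 ∨ p = -1) → (q = 1 ∨ q = -1) →
      p * ip a b + q * ip b c ≤ 1 + (p * q) * ip a c := by
    intro p q hp hq
    have h1 : ∑ y, (p * (a y * b y) + q * (b y * c y)) ≤ ∑ y, (1 + p * q * (a y * c y)) := by
      refine Finset.sum_le_sum fun y _ => ?_
      rcases hp with rfl | rfl <;> rcases hq with rfl | rfl <;> rcases ha y with h | h <;>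
        rcases hb y with h' | h' <;> rcases hc y with h'' | h'' <;> rw [h, h', h''] <;> norm_num
    rw [Finset.sum_add_distrib, Finset.sum_add_distrib, ← Finset.mul_sum, ← Finset.mul_sum,
      ← Finset.mul_sum, Finset.sum_const, Finset.card_univ, nsmul_eq_mul, mul_one] at h1
    unfold ip
    rw [← mul_div_assoc, ← mul_div_assoc, ← mul_div_assoc, ← add_div]
    rw [div_le_iff₀ hX, add_mul, div_mul_cancel₀ _ hX.ne', one_mul]
    exact h1
  have hle : ∀ z : ℝ, z ≤ |z| := le_abs_self
  have hle' : ∀ z : ℝ, -z ≤ |z| := neg_le_abs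
  rcases abs_cases (ip a b) with ⟨h1, _⟩ | ⟨h1, _⟩ <;>
    rcases abs_cases (ip b c) with ⟨h2, _⟩ | ⟨h2, _⟩ <;> rw [h1, h2]
  · have := key 1 1 (Or.inl rfl) (Or.inl rfl)
    linarith [hle (ip a c)]
  · have := key 1 (-1) (Or.inl rfl) (Or.inr rfl)
    linarith [hle' (ip a c)]
  · have := key (-1) 1 (Or.inr rfl) (Or.inl rfl)
    linarith [hle' (ip a c)]
  · have := key (-1) (-1) (Or.inr rfl) (Or.inr rfl)
    linarith [hle (ip a c)]

theorem abs_ip_le_one {a b : X → ℝ} (ha : IsSign a) (hb : IsSign b) : |ip a b| ≤ 1 := by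
  have := ip_tri ha hb ha
  rw [ip_self ha, abs_one, ip_comm b a] at this
  linarith

/-- If `|⟨a,b⟩| = 1` then `a = b` or `a = -b`, in the weak form which is used. -/
theorem abs_ip_eq_of_one {a b c : X → ℝ} (ha : IsSign a) (hb : IsSign b) (hc : IsSign c)
    (h : |ip a b| = 1) : |ip a c| = |ip b c| := by
  have h1 := ip_tri ha hb hc
  have h2 := ip_tri hb ha hc
  rw [ip_comm b a] at h2
  rw [h] at h1 h2
  linarith

end

section

variable {X : Type*} [AddCommGroup X] [Fintype X]

/-- Translation. -/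
def sh (x : X) (a : X → ℝ) : X → ℝ := fun y => a (y + x)

theorem IsSign.sh {a : X → ℝ} (ha : IsSign a) (x : X) : IsSign (sh x a) := fun y => ha (y + x)

@[simp] theorem sh_zero (a : X → ℝ) : sh 0 a = a := by
  funext y
  simp [sh]

theorem sh_sh (x x' : X) (a : X → ℝ) : sh x (sh x' a) = sh (x + x') a := by
  funext y
  simp [sh, add_assoc]

theorem ip_sh_sh (x : X) (a b : X → ℝ) : ip (sh x a) (sh x b) = ip a b := by
  unfold ip sh
  congr 1
  exact Fintype.sum_equiv (Equiv.addRight x) _ _ fun y => rfl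

theorem ip_sh_left (x : X) (a b : X → ℝ) : ip (sh x a) b = ip a (sh (-x) b) := by
  have h : b = sh x (sh (-x) b) := by rw [sh_sh]; simp
  conv_lhs => rw [h]
  rw [ip_sh_sh]

end

end Vale.Agent.P318.H508
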