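import Vale.Agent.P318.H508.Bad

/-!
# The Goemans–Linial solution of a translation invariant code
-/

open Finset
open Vale.Agent.P318.H867

namespace Vale.Agent.P318.H508

variable {X : Type*} [AddCommGroup X] [Fintype X]

/-- The weight of a word and the mean of its sign function. -/
theorem sum_sgv (w : X → ZMod 2) :
    ∑ y, sgv w y = (Fintype.card X : ℝ) - 2 * ((univ.filter fun y => w y ≠ 0).card : ℝ) := by
  classical
  have h1 : ∀ y, sgv w y = 1 - 2 * (if w y ≠ 0 then (1 : ℝ) else 0) := by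
    intro y
    unfold sgv sg
    by_cases h : w y = 0
    · rw [if_pos h, if_neg (not_not.2 h)]
      norm_num
    · rw [if_neg h, if_pos h]
      norm_num
  rw [Finset.sum_congr rfl fun y _ => h1 y, Finset.sum_sub_distrib, ← Finset.mul_sum,
    Finset.sum_boole]
  simp

theorem ip_sgv (u v : X → ZMod 2) :
    ip (sgv u) (sgv v)
      = 1 - 2 * (((univ.filter fun y => u y + v y ≠ 0).card : ℝ) / Fintype.card X) := by
  have hX := card_pos' (X := X)
  have h1 : ∑ y, sgv u y * sgv v y = ∑ y, sgv (fun y => u y + v y) y :=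
    Finset.sum_congr rfl fun y _ => (sg_add _ _).symm
  unfold ip
  rw [h1, sum_sgv, sub_div, div_self hX.ne', mul_div_assoc]

theorem granular {V : Submodule (ZMod 2) (X → ZMod 2)}
    (htr : ∀ v ∈ V, ∀ x : X, (fun y => v (y + x)) ∈ V) (hone : (fun _ => 1 : X → ZMod 2) ∈ V)
    {s : ℕ}
    (hmd : ∀ v ∈ V, v ≠ 0 → Fintype.card X ≤ 2 ^ s * (univ.filter fun y => v y ≠ 0).card)
    {u v : X → ZMod 2} (hu : u ∈ V) (hv : v ∈ V) (x : X) :
    |ip (sgv u) (sh x (sgv v))| = 1 ∨ |ip (sgv u) (sh x (sgv v))| ≤ 1 - 2 / 2 ^ s := by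
  classical
  have hX := card_pos' (X := X)
  set N : ℝ := (Fintype.card X : ℝ) with hN
  have hw : (fun y => u y + v (y + x)) ∈ V := V.add_mem hu (htr v hv x)
  set w : X → ZMod 2 := fun y => u y + v (y + x) with hwdef
  have h1 : ip (sgv u) (sh x (sgv v))
      = 1 - 2 * (((univ.filter fun y => w y ≠ 0).card : ℝ) / N) :=
    ip_sgv u (fun y => v (y + x))
  have h2s : (0 : ℝ) < 2 ^ s := by positivity
  by_cases hw0 : w = 0
  · left
    rw [h1, hw0]
    simp
  have hw1 : w + (fun _ => 1) ∈ V := V.add_mem hw hone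
  have h2 : (univ.filter fun y => (w + fun _ => 1 : X → ZMod 2) y ≠ 0)
      = univ.filter fun y => ¬ (w y ≠ 0) := by
    refine Finset.filter_congr fun y _ => ?_
    have h3 : ∀ a : ZMod 2, a + 1 ≠ 0 ↔ ¬ (a ≠ 0) := by decide
    exact h3 (w y)
  have h3 : ((univ.filter fun y => w y ≠ 0).card : ℝ)
      + ((univ.filter fun y => ¬ (w y ≠ 0)).card : ℝ) = N := by
    rw [hN, ← Finset.card_univ (α := X)]
    exact_mod_cast Finset.card_filter_add_card_filter_not (s := (univ : Finset X))
      (fun y => w y ≠ 0)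
  by_cases hw2 : w + (fun _ => 1) = 0
  · left
    have h4 : ((univ.filter fun y => ¬ (w y ≠ 0)).card : ℝ) = 0 := by
      rw [← h2, hw2]
      simp
    have h5 : ((univ.filter fun y => w y ≠ 0).card : ℝ) = N := by linarith
    rw [h1, h5, div_self hX.ne']
    norm_num
  · right
    have h4 : N ≤ 2 ^ s * ((univ.filter fun y => w y ≠ 0).card : ℝ) := by
      rw [hN]
      exact_mod_cast hmd w hw hw0
    have h5 : N ≤ 2 ^ s * ((univ.filter fun y => ¬ (w y ≠ 0)).card : ℝ) := by
      rw [hN, ← h2]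
      exact_mod_cast hmd _ hw1 hw2
    set a : ℝ := ((univ.filter fun y => w y ≠ 0).card : ℝ) with ha
    set b : ℝ := ((univ.filter fun y => ¬ (w y ≠ 0)).card : ℝ) with hb
    have h6 : 1 / 2 ^ s ≤ a / N := by
      rw [div_le_div_iff₀ h2s hX]
      linarith
    have h7 : 1 / 2 ^ s ≤ b / N := by
      rw [div_le_div_iff₀ h2s hX]
      linarith
    have h8 : a / N + b / N = 1 := by rw [← add_div, h3, div_self hX.ne']
    have h9 : 2 / (2 : ℝ) ^ s = 2 * (1 / 2 ^ s) := by ring
    rw [h1, h9, abs_le]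
    constructor <;> linarith

theorem good_sh {M : ℝ} {a : X → ℝ} (ha : Good M a) (x : X) : Good M (sh x a) := by
  refine ⟨ha.sign.sh x, fun y hy => ?_, fun u hu => ?_⟩
  · have h1 : ip (sh x a) (sh y (sh x a)) = ip a (sh y a) := by
      rw [sh_sh, add_comm, ← sh_sh, ip_sh_sh]
    rw [h1]
    exact ha.auto y hy
  · have h1 : ∑ y, ip u (sh y (sh x a)) ^ 2 = ∑ y, ip u (sh y a) ^ 2 := by
      refine Fintype.sum_equiv (Equiv.addRight x) _ _ fun y => ?_
      rw [sh_sh]
      rfl
    rw [h1]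
    exact ha.sq u hu

theorem S_self_le {t : ℕ} (ht : Even t) (ht2 : 2 ≤ t) {M : ℝ} {v : X → ℝ} (hv : Good M v) :
    S t v v ≤ 1 + (3 / 4) ^ (t - 2) * M := by
  have h1 : |ip v (sh 0 v)| = 1 := by rw [sh_zero, ip_self hv.sign, abs_one]
  have h2 := S_le_of_large ht ht2 hv.sign hv (x0 := 0) (by rw [h1]; norm_num)
  rwa [h1, one_pow] at h2

/-- The kernel theorem before rescaling. -/
theorem gl_kernel_raw (V : Submodule (ZMod 2) (X → ZMod 2)) [Fintype V] [DecidableEq V]
    (hexp : ∀ x : X, x + x = 0) (κ s t : ℕ) (hκ : Fintype.card X = 2 ^ κ)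
    (htr : ∀ v ∈ V, ∀ x : X, (fun y => v (y + x)) ∈ V)
    (hone : (fun _ => 1 : X → ZMod 2) ∈ V)
    (hmd : ∀ v ∈ V, v ≠ 0 → Fintype.card X ≤ 2 ^ s * (univ.filter fun y => v y ≠ 0).card)
    (hind : ∀ U : Finset X, U.Nonempty → U.card ≤ 2 * κ → ∃ v ∈ V, ∑ x ∈ U, v x ≠ 0)
    (ht : Even t) (ht4 : 4 ≤ t) (htρ : 25 * κ * 4 ^ s * 3 ^ (t - 2) ≤ 4 ^ (t - 2))
    (hs : 1 ≤ s) (hκs : 2 * s + 40 ≤ κ) :
    ∃ (R : ℝ) (d : V → V → ℝ), 1 ≤ R ∧ R ≤ 3 / 2 ∧ IsNegTypeSemimetric d ∧
      (∀ u v : V, ∀ x : X, (∀ y, v.1 y = u.1 (y + x)) → d u v = 0) ∧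
      (∀ u v : V, d u v ≤ 2 * R) ∧
      (∀ g : V, ∑ u : V, d u (u + g)
        ≤ 6 * t * (((univ.filter fun y => g.1 y ≠ 0).card : ℝ) / Fintype.card X)
          * Fintype.card V) ∧
      8 * (univ.filter fun p : V × V => d p.1 p.2 < 3 / 2).card ≤ Fintype.card V ^ 2 := by
  classical
  have hX := card_pos' (X := X)
  have ht2 : 2 ≤ t := by omega
  set M : ℝ := 50 * κ with hM
  have hM0 : 0 ≤ M := by positivity
  set ρ : ℝ := (3 / 4) ^ (t - 2) * M with hρdef
  have hρ0 : 0 ≤ ρ := by positivity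
  set γ : ℝ := 2 / 2 ^ s with hγ
  have h2s : (2 : ℝ) ≤ 2 ^ s := by
    calc (2 : ℝ) = 2 ^ 1 := (pow_one 2).symm
      _ ≤ 2 ^ s := pow_le_pow_right₀ (by norm_num) hs
  have hγ0 : 0 ≤ γ := by positivity
  have hγ1 : γ ≤ 1 := by
    rw [hγ, div_le_one (by positivity)]
    exact h2s
  have h4s : (4 : ℝ) ^ s = 2 ^ s * 2 ^ s := by
    rw [← mul_pow]
    norm_num
  have hγ2 : γ ^ 2 = 4 / 4 ^ s := by
    rw [hγ, div_pow, h4s]
    ring
  have hρ : 2 * ρ ≤ γ ^ 2 := by
    have h1 : (25 * κ * 4 ^ s * 3 ^ (t - 2) : ℝ) ≤ 4 ^ (t - 2) := by exact_mod_cast htρ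
    rw [hγ2, le_div_iff₀ (by positivity), hρdef, hM, div_pow]
    have h2 : (0 : ℝ) < 4 ^ (t - 2) := by positivity
    have h3 : 2 * ((3 : ℝ) ^ (t - 2) / 4 ^ (t - 2) * (50 * κ)) * 4 ^ s
        = 4 * ((25 * κ * 4 ^ s * 3 ^ (t - 2)) / 4 ^ (t - 2)) := by ring
    rw [h3]
    have h4 : (25 * κ * 4 ^ s * 3 ^ (t - 2) : ℝ) / 4 ^ (t - 2) ≤ 1 := (div_le_one h2).2 h1
    linarith
  have hρ1 : ρ ≤ 1 / 2 := by nlinarith
  have hgr : ∀ u v : V, ∀ x : X, |ip (sgv u.1) (sh x (sgv v.1))| = 1 ∨
      |ip (sgv u.1) (sh x (sgv v.1))| ≤ 1 - γ := fun u v x =>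
    granular htr hone hmd u.2 v.2 x
  obtain ⟨w, hw⟩ := gram (X := X) t
  let G : V → Prop := fun v => Good M (sgv v.1)
  let W : V → EuclideanSpace ℝ (Fin t → X) := fun v => if G v then w (sgv v.1) else 0
  let d : V → V → ℝ := fun u v => ‖W u - W v‖ ^ 2
  have hd : ∀ u v, d u v = inner ℝ (W u) (W u) + inner ℝ (W v) (W v) - 2 * inner ℝ (W u) (W v) := by
    intro u v
    change ‖W u - W v‖ ^ 2 = _
    rw [@norm_sub_sq_real, real_inner_self_eq_norm_sq, real_inner_self_eq_norm_sq]
    ring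
  have hWg : ∀ u, G u → W u = w (sgv u.1) := fun u hu => if_pos hu
  have hWb : ∀ u, ¬ G u → W u = 0 := fun u hu => if_neg hu
  have hgg : ∀ u v, G u → G v → d u v = S t (sgv u.1) (sgv u.1) + S t (sgv v.1) (sgv v.1)
      - 2 * S t (sgv u.1) (sgv v.1) := by
    intro u v hu hv
    rw [hd, hWg u hu, hWg v hv, hw, hw, hw]
  have hgb : ∀ u v, G u → ¬ G v → d u v = S t (sgv u.1) (sgv u.1) := by
    intro u v hu hv
    rw [hd, hWg u hu, hWb v hv, hw, inner_zero_left, inner_zero_right]
    ring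
  have hbg : ∀ u v, ¬ G u → G v → d u v = S t (sgv v.1) (sgv v.1) := by
    intro u v hu hv
    rw [hd, hWb u hu, hWg v hv, hw, inner_zero_left, inner_zero_left]
    ring
  have hbb : ∀ u v, ¬ G u → ¬ G v → d u v = 0 := by
    intro u v hu hv
    rw [hd, hWb u hu, hWb v hv, inner_zero_left]
    ring
  have hdiag : ∀ u v, G u → G v → S t (sgv u.1) (sgv v.1) ≤ S t (sgv v.1) (sgv v.1) :=
    fun u v hu hv => S_le_diag ht ht2 hγ0 hγ1 hρ hu.sign hv (hgr u v)
  have htri : ∀ i j k, d i k ≤ d i j + d j k := by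
    intro i j k
    by_cases hi : G i <;> by_cases hj : G j <;> by_cases hk : G k
    · rw [hgg i k hi hk, hgg i j hi hj, hgg j k hj hk]
      have := S_tri ht ht2 hM0 hγ0 hγ1 hρ hi.sign hj hk (hgr i j) (hgr j k)
      linarith
    · rw [hgb i k hi hk, hgg i j hi hj, hgb j k hj hk]
      have := hdiag i j hi hj
      linarith
    · rw [hgg i k hi hk, hgb i j hi hj, hbg j k hj hk]
      have := S_nonneg ht (sgv i.1) (sgv k.1)
      linarith
    · rw [hgb i k hi hk, hgb i j hi hj, hbb j k hj hk]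
      linarith
    · rw [hbg i k hi hk, hbg i j hi hj, hgg j k hj hk]
      have := hdiag k j hk hj
      rw [S_comm] at this
      linarith
    · rw [hbb i k hi hk, hbg i j hi hj, hgb j k hj hk]
      have := S_nonneg ht (sgv j.1) (sgv j.1)
      linarith
    · rw [hbg i k hi hk, hbb i j hi hj, hbg j k hj hk]
      linarith
    · rw [hbb i k hi hk, hbb i j hi hj, hbb j k hj hk]
      linarith
  -- number of bad words
  set m : ℝ := (Fintype.card V : ℝ) with hm
  have hm0 : 0 ≤ m := by positivity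
  have hbad : ((univ.filter fun v : V => ¬ G v).card : ℝ) ≤ m / (64 * 4 ^ s) :=
    bad_card hexp hκ hκs hind
  refine ⟨1 + ρ, d, by linarith, by linarith, negType_of_inner W d (fun i j => rfl) htri,
    ?_, ?_, ?_, ?_⟩
  · -- orbits
    intro u v x huv
    have h1 : sgv v.1 = sh x (sgv u.1) := by
      funext y
      change sg (v.1 y) = sg (u.1 (y + x))
      rw [huv y]
    have h2 : sgv u.1 = sh (-x) (sgv v.1) := by
      rw [h1, sh_sh]
      simp
    by_cases hu : G u
    · have hv : G v := by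
        change Good M (sgv v.1)
        rw [h1]
        exact good_sh hu x
      rw [hgg u v hu hv, h1, S_sh_right, S_sh_left, S_sh_right]
      ring
    · have hv : ¬ G v := by
        intro hv
        apply hu
        change Good M (sgv u.1)
        rw [h2]
        exact good_sh hv (-x)
      exact hbb u v hu hv
  · -- upper bound
    intro u v
    by_cases hu : G u <;> by_cases hv : G v
    · rw [hgg u v hu hv]
      have h1 := S_self_le ht ht2 hu
      have h2 := S_self_le ht ht2 hv
      have h3 := S_nonneg ht (sgv u.1) (sgv v.1)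
      linarith
    · rw [hgb u v hu hv]
      have h1 := S_self_le ht ht2 hu
      linarith
    · rw [hbg u v hu hv]
      have h1 := S_self_le ht ht2 hv
      linarith
    · rw [hbb u v hu hv]
      linarith
  · -- cost
    intro g
    set wt : ℝ := ((univ.filter fun y => g.1 y ≠ 0).card : ℝ) / Fintype.card X with hwt
    by_cases hg0 : g = 0
    · have h1 : ∀ u : V, d u (u + g) = 0 := by
        intro u
        rw [hg0, add_zero]
        change ‖W u - W u‖ ^ 2 = 0
        rw [sub_self, norm_zero]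
        norm_num
      rw [Finset.sum_congr rfl fun u _ => h1 u, Finset.sum_const_zero]
      have : 0 ≤ wt := by positivity
      positivity
    have hwt1 : 1 / 2 ^ s ≤ wt := by
      have h1 : g.1 ≠ 0 := fun h => hg0 (Subtype.ext h)
      have h2 : (Fintype.card X : ℝ) ≤ 2 ^ s * ((univ.filter fun y => g.1 y ≠ 0).card : ℝ) := by
        exact_mod_cast hmd g.1 g.2 h1
      rw [hwt, div_le_div_iff₀ (by positivity) hX]
      linarith
    have hwt2 : wt ≤ 1 := by
      rw [hwt, div_le_one hX]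
      exact_mod_cast Finset.card_filter_le _ _ |>.trans (by rw [Finset.card_univ])
    have hip : ∀ u : V, ip (sgv u.1) (sgv (u + g).1) = 1 - 2 * wt := by
      intro u
      rw [ip_sgv, hwt]
      have h1 : (univ.filter fun y => u.1 y + (u + g).1 y ≠ 0) = univ.filter fun y => g.1 y ≠ 0 := by
        refine Finset.filter_congr fun y _ => ?_
        have h2 : u.1 y + (u + g).1 y = g.1 y := by
          have h3 : ∀ a b : ZMod 2, a + (a + b) = b := by decide
          rw [Submodule.coe_add, Pi.add_apply]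
          exact h3 _ _
        rw [h2]
      rw [h1]
    have hbern : 1 - 2 * t * wt ≤ (1 - 2 * wt) ^ t := by
      have h1 := one_add_mul_le_pow (a := -(2 * wt)) (by linarith) t
      calc 1 - 2 * t * wt = 1 + t * (-(2 * wt)) := by ring
        _ ≤ (1 + -(2 * wt)) ^ t := h1
        _ = _ := by ring
    have hpt : ∀ u : V, d u (u + g) ≤ (2 * ρ + 4 * t * wt)
        + 2 * (if ¬ G u then (1 : ℝ) else 0) + 2 * (if ¬ G (u + g) then (1 : ℝ) else 0) := by
      intro u
      have hpos : 0 ≤ 2 * ρ + 4 * t * wt := by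
        have : 0 ≤ wt := by positivity
        positivity
      by_cases hu : G u <;> by_cases hv : G (u + g)
      · rw [hgg u _ hu hv, if_neg (not_not.2 hu), if_neg (not_not.2 hv)]
        have h1 := S_self_le ht ht2 hu
        have h2 := S_self_le ht ht2 hv
        have h3 : ip (sgv u.1) (sh 0 (sgv (u + g).1)) ^ t ≤ S t (sgv u.1) (sgv (u + g).1) :=
          Finset.single_le_sum (f := fun x => ip (sgv u.1) (sh x (sgv (u + g).1)) ^ t)
            (fun x _ => ht.pow_nonneg _) (Finset.mem_univ 0)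
        rw [sh_zero, hip u] at h3
        linarith
      · rw [hgb u _ hu hv, if_neg (not_not.2 hu), if_pos hv]
        have h1 := S_self_le ht ht2 hu
        linarith
      · rw [hbg u _ hu hv, if_pos hu, if_neg (not_not.2 hv)]
        have h1 := S_self_le ht ht2 hv
        linarith
      · rw [hbb u _ hu hv, if_pos hu, if_pos hv]
        linarith
    have hcnt1 : ∑ u : V, (if ¬ G u then (1 : ℝ) else 0)
        = ((univ.filter fun v : V => ¬ G v).card : ℝ) := by
      rw [Finset.sum_boole]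
    have hcnt2 : ∑ u : V, (if ¬ G (u + g) then (1 : ℝ) else 0)
        = ((univ.filter fun v : V => ¬ G v).card : ℝ) := by
      rw [← hcnt1]
      exact Fintype.sum_equiv (Equiv.addRight g) _ _ fun u => rfl
    have h1 : ∑ u : V, d u (u + g) ≤ m * (2 * ρ + 4 * t * wt) + 4 * (m / (64 * 4 ^ s)) := by
      calc ∑ u : V, d u (u + g) ≤ ∑ u : V, ((2 * ρ + 4 * t * wt)
            + 2 * (if ¬ G u then (1 : ℝ) else 0) + 2 * (if ¬ G (u + g) then (1 : ℝ) else 0)) :=
            Finset.sum_le_sum fun u _ => hpt u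
        _ = m * (2 * ρ + 4 * t * wt) + 2 * ((univ.filter fun v : V => ¬ G v).card : ℝ)
            + 2 * ((univ.filter fun v : V => ¬ G v).card : ℝ) := by
            rw [Finset.sum_add_distrib, Finset.sum_add_distrib, ← Finset.mul_sum,
              ← Finset.mul_sum, hcnt1, hcnt2, Finset.sum_const, Finset.card_univ, nsmul_eq_mul]
        _ ≤ _ := by linarith
    have h2 : 2 * ρ ≤ 4 / 4 ^ s := hγ2 ▸ hρ
    have h3 : 1 / (4 : ℝ) ^ s ≤ 1 / 2 ^ s := by
      refine one_div_le_one_div_of_le (by positivity) ?_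
      exact pow_le_pow_left₀ (by norm_num) (by norm_num) _
    have h4 : (4 : ℝ) ≤ t := by exact_mod_cast ht4
    have h5 : 4 * (1 / (2 : ℝ) ^ s) ≤ t * wt := mul_le_mul h4 hwt1 (by positivity) (by linarith)
    have h6 : 4 / (4 : ℝ) ^ s = 4 * (1 / 4 ^ s) := by ring
    have h7 : 4 * (m / (64 * (4 : ℝ) ^ s)) = m * (1 / 16 * (1 / 4 ^ s)) := by ring
    have h8 : 0 ≤ 1 / (2 : ℝ) ^ s := by positivity
    rw [h7] at h1
    calc ∑ u : V, d u (u + g) ≤ m * (2 * ρ + 4 * t * wt) + m * (1 / 16 * (1 / 4 ^ s)) := h1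
      _ = m * (2 * ρ + 4 * t * wt + 1 / 16 * (1 / 4 ^ s)) := by ring
      _ ≤ m * (6 * t * wt) := by
          refine mul_le_mul_of_nonneg_left ?_ hm0
          linarith
      _ = _ := by ring
  · -- far pairs
    have hS : ∀ u : V, ∑ v : V, S t (sgv u.1) (sgv v.1)
        ≤ m * (12 / (Fintype.card X : ℝ)) := by
      intro u
      unfold S
      rw [Finset.sum_comm]
      have h1 : ∀ x : X, ∑ v : V, ip (sgv u.1) (sh x (sgv v.1)) ^ t
          ≤ m * (12 / (Fintype.card X : ℝ) ^ 2) := by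
        intro x
        refine le_trans (Finset.sum_le_sum fun v _ => ?_)
          (corr_moment (V := V) (fun U hU hk => hind U hU (by omega)) (sgv_sign u.1) x)
        have h2 := abs_ip_le_one (sgv_sign u.1) ((sgv_sign v.1).sh x)
        rw [← ht.pow_abs, ← (by decide : Even 4).pow_abs]
        exact pow_le_pow_of_le_one (abs_nonneg _) h2 ht4
      calc ∑ x : X, ∑ v : V, ip (sgv u.1) (sh x (sgv v.1)) ^ t
          ≤ ∑ _x : X, m * (12 / (Fintype.card X : ℝ) ^ 2) := Finset.sum_le_sum fun x _ => h1 x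
        _ = m * (12 / (Fintype.card X : ℝ)) := by
          rw [Finset.sum_const, Finset.card_univ, nsmul_eq_mul]
          field_simp
    set C : V → Finset V := fun u => univ.filter fun v : V =>
      1 / 4 < S t (sgv u.1) (sgv v.1) with hC
    have hCc : ∀ u : V, ((C u).card : ℝ) ≤ m * (48 / (Fintype.card X : ℝ)) := by
      intro u
      have h1 := markov (fun v : V => S t (sgv u.1) (sgv v.1)) (fun v => S_nonneg ht _ _) (1 / 4)
      have h2 := hS u
      have h3 : ((C u).card : ℝ) * (1 / 4) ≤ m * (12 / (Fintype.card X : ℝ)) := h1.trans h2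
      calc ((C u).card : ℝ) = 4 * (((C u).card : ℝ) * (1 / 4)) := by ring
        _ ≤ 4 * (m * (12 / (Fintype.card X : ℝ))) := by linarith
        _ = _ := by ring
    have hsub : ∀ u : V, G u → (univ.filter fun v : V => d u v < 3 / 2)
        ⊆ (univ.filter fun v : V => ¬ G v) ∪ C u := by
      intro u hu v hv
      rw [mem_filter] at hv
      rw [mem_union]
      by_cases hgv : G v
      · right
        rw [hC, mem_filter]
        refine ⟨mem_univ _, ?_⟩
        have h1 := hv.2
        rw [hgg u v hu hgv] at h1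
        have h2 := S_self_ge ht hu.sign
        have h3 := S_self_ge ht hgv.sign
        linarith
      · left
        exact mem_filter.2 ⟨mem_univ _, hgv⟩
    have hcard : ((univ.filter fun p : V × V => d p.1 p.2 < 3 / 2).card : ℝ)
        ≤ m * (m / 64 + m * (48 / (Fintype.card X : ℝ))) + m / 64 * m := by
      have h1 : ((univ.filter fun p : V × V => d p.1 p.2 < 3 / 2).card : ℝ)
          = ∑ u : V, ((univ.filter fun v : V => d u v < 3 / 2).card : ℝ) := by
        have h2 : (univ.filter fun p : V × V => d p.1 p.2 < 3 / 2).card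
            = ∑ u : V, (univ.filter fun v : V => d u v < 3 / 2).card := by
          rw [Finset.card_eq_sum_ones, Finset.sum_filter, ← Finset.univ_product_univ,
            Finset.sum_product]
          refine Finset.sum_congr rfl fun u _ => ?_
          rw [Finset.card_eq_sum_ones, Finset.sum_filter]
        rw [h2]
        push_cast
        rfl
      rw [h1]
      have hb64 : ((univ.filter fun v : V => ¬ G v).card : ℝ) ≤ m / 64 := by
        refine hbad.trans ?_
        refine div_le_div_of_nonneg_left hm0 (by norm_num) ?_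
        have : (1 : ℝ) ≤ 4 ^ s := one_le_pow₀ (by norm_num)
        linarith
      have h3 : ∀ u : V, ((univ.filter fun v : V => d u v < 3 / 2).card : ℝ)
          ≤ (m / 64 + m * (48 / (Fintype.card X : ℝ))) + (if ¬ G u then (1 : ℝ) else 0) * m := by
        intro u
        by_cases hu : G u
        · rw [if_neg (not_not.2 hu), zero_mul, add_zero]
          have h4 := (card_le_card (hsub u hu)).trans (card_union_le _ _)
          have h5 : ((univ.filter fun v : V => d u v < 3 / 2).card : ℝ)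
              ≤ ((univ.filter fun v : V => ¬ G v).card : ℝ) + ((C u).card : ℝ) := by
            exact_mod_cast h4
          linarith [hCc u]
        · rw [if_pos hu, one_mul]
          have h4 : ((univ.filter fun v : V => d u v < 3 / 2).card : ℝ) ≤ m := by
            rw [hm]
            exact_mod_cast Finset.card_filter_le _ _ |>.trans (by rw [Finset.card_univ])
          have h5 : 0 ≤ m / 64 + m * (48 / (Fintype.card X : ℝ)) := by positivity
          linarith
      calc ∑ u : V, ((univ.filter fun v : V => d u v < 3 / 2).card : ℝ)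
          ≤ ∑ u : V, ((m / 64 + m * (48 / (Fintype.card X : ℝ)))
            + (if ¬ G u then (1 : ℝ) else 0) * m) := Finset.sum_le_sum fun u _ => h3 u
        _ = m * (m / 64 + m * (48 / (Fintype.card X : ℝ)))
            + ((univ.filter fun v : V => ¬ G v).card : ℝ) * m := by
            rw [Finset.sum_add_distrib, Finset.sum_const, Finset.card_univ, nsmul_eq_mul,
              ← Finset.sum_mul, Finset.sum_boole]
        _ ≤ _ := by
            have := mul_le_mul_of_nonneg_right hb64 hm0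
            linarith
    have hXbig : (48 : ℝ) / Fintype.card X ≤ 1 / 64 := by
      rw [div_le_div_iff₀ hX (by norm_num)]
      have h1 : (2 : ℝ) ^ 40 ≤ Fintype.card X := by
        rw [hκ]
        push_cast
        exact pow_le_pow_right₀ (by norm_num) (by omega)
      norm_num at h1 ⊢
      linarith
    have hfin : (8 : ℝ) * ((univ.filter fun p : V × V => d p.1 p.2 < 3 / 2).card : ℝ) ≤ m ^ 2 := by
      have h1 : m * (48 / (Fintype.card X : ℝ)) ≤ m * (1 / 64) :=
        mul_le_mul_of_nonneg_left hXbig hm0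
      have h2 : m * (m / 64 + m * (48 / (Fintype.card X : ℝ))) ≤ m * (m / 64 + m * (1 / 64)) :=
        mul_le_mul_of_nonneg_left (by linarith) hm0
      nlinarith
    rw [hm] at hfin
    exact_mod_cast hfin

theorem IsNegTypeSemimetric.scale {V : Type*} [Fintype V] [DecidableEq V] {d : V → V → ℝ}
    (hd : IsNegTypeSemimetric d) {r : ℝ} (hr : 0 ≤ r) :
    IsNegTypeSemimetric fun u v => r * d u v := by
  obtain ⟨⟨x, hx⟩, htri⟩ := hd
  refine ⟨⟨fun i => Real.sqrt r • x i, fun i j => ?_⟩, fun i j k => ?_⟩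
  · change r * d i j = _
    rw [← smul_sub, norm_smul, mul_pow, Real.norm_eq_abs, sq_abs, Real.sq_sqrt hr, hx]
  · have h := mul_le_mul_of_nonneg_left (htri i j k) hr
    rwa [mul_add] at h

/-- **The kernel theorem.** A translation invariant code with constants, minimum distance
`2^{-s}` and `2κ`-wise independence has a negative type semimetric which vanishes on the
translation orbits, is at most two, is small on average along every fixed difference `g` of small
weight, and is at least one for all but `1/8` of the pairs. -/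
theorem gl_kernel (V : Submodule (ZMod 2) (X → ZMod 2)) [Fintype V] [DecidableEq V]
    (hexp : ∀ x : X, x + x = 0) (κ s t : ℕ) (hκ : Fintype.card X = 2 ^ κ)
    (htr : ∀ v ∈ V, ∀ x : X, (fun y => v (y + x)) ∈ V)
    (hone : (fun _ => 1 : X → ZMod 2) ∈ V)
    (hmd : ∀ v ∈ V, v ≠ 0 → Fintype.card X ≤ 2 ^ s * (univ.filter fun y => v y ≠ 0).card)
    (hind : ∀ U : Finset X, U.Nonempty → U.card ≤ 2 * κ → ∃ v ∈ V, ∑ x ∈ U, v x ≠ 0)
    (ht : Even t) (ht4 : 4 ≤ t) (htρ : 25 * κ * 4 ^ s * 3 ^ (t - 2) ≤ 4 ^ (t - 2))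
    (hs : 1 ≤ s) (hκs : 2 * s + 40 ≤ κ) :
    ∃ d : V → V → ℝ, IsNegTypeSemimetric d ∧
      (∀ u v : V, ∀ x : X, (∀ y, v.1 y = u.1 (y + x)) → d u v = 0) ∧
      (∀ u v : V, d u v ≤ 2) ∧
      (∀ g : V, ∑ u : V, d u (u + g)
        ≤ 6 * t * (((univ.filter fun y => g.1 y ≠ 0).card : ℝ) / Fintype.card X)
          * Fintype.card V) ∧
      8 * (univ.filter fun p : V × V => d p.1 p.2 < 1).card ≤ Fintype.card V ^ 2 := by
  obtain ⟨R, d, hR1, hR2, hneg, horb, hle, hcost, hfar⟩ :=
    gl_kernel_raw V hexp κ s t hκ htr hone hmd hind ht ht4 htρ hs hκs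
  have hR0 : 0 < R := by linarith
  refine ⟨fun u v => R⁻¹ * d u v, IsNegTypeSemimetric.scale hneg (by positivity), ?_, ?_, ?_, ?_⟩
  · intro u v x h
    change R⁻¹ * d u v = 0
    rw [horb u v x h, mul_zero]
  · intro u v
    have h1 := hle u v
    change R⁻¹ * d u v ≤ 2
    rw [inv_mul_le_iff₀ hR0]
    linarith
  · intro g
    change ∑ u : V, R⁻¹ * d u (u + g) ≤ _
    rw [← Finset.mul_sum, inv_mul_le_iff₀ hR0]
    refine (hcost g).trans ?_
    have h1 : 0 ≤ 6 * t * (((univ.filter fun y => g.1 y ≠ 0).card : ℝ) / Fintype.card X)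
          * Fintype.card V := by positivity
    nlinarith
  · refine le_trans ?_ hfar
    refine Nat.mul_le_mul_left 8 (card_le_card fun p hp => ?_)
    rw [mem_filter] at hp ⊢
    refine ⟨mem_univ _, ?_⟩
    have h1 : R⁻¹ * d p.1 p.2 < 1 := hp.2
    rw [inv_mul_lt_iff₀ hR0] at h1
    linarith

end Vale.Agent.P318.H508
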