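import Vale.Agent.P318.H508.Basic

/-!
# The translation-averaged power kernel and its triangle inequalities
-/

open Finset
open Vale.Agent.P318.H867

namespace Vale.Agent.P318.H508

variable {X : Type*} [AddCommGroup X] [Fintype X]

/-- The kernel `S(a,b) = ∑_x ⟨a, τ_x b⟩^t`. -/
noncomputable def S (t : ℕ) (a b : X → ℝ) : ℝ := ∑ x, ip a (sh x b) ^ t

theorem S_comm (t : ℕ) (a b : X → ℝ) : S t a b = S t b a := by
  unfold S
  refine Fintype.sum_equiv (Equiv.neg X) _ _ fun x => ?_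
  rw [Equiv.neg_apply, ip_comm a, ip_sh_left]

theorem S_nonneg {t : ℕ} (ht : Even t) (a b : X → ℝ) : 0 ≤ S t a b :=
  Finset.sum_nonneg fun _ _ => ht.pow_nonneg _

theorem S_sh_left (t : ℕ) (x : X) (a b : X → ℝ) : S t (sh x a) b = S t a b := by
  unfold S
  refine Fintype.sum_equiv (Equiv.addLeft (-x)) _ _ fun y => ?_
  rw [ip_sh_left, sh_sh]
  rfl

theorem S_sh_right (t : ℕ) (x : X) (a b : X → ℝ) : S t a (sh x b) = S t a b := by
  rw [S_comm, S_sh_left, S_comm]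

theorem S_self_ge {t : ℕ} (ht : Even t) {a : X → ℝ} (ha : IsSign a) : 1 ≤ S t a a := by
  have h : ip a (sh 0 a) ^ t ≤ S t a a :=
    Finset.single_le_sum (f := fun x => ip a (sh x a) ^ t) (fun x _ => ht.pow_nonneg _)
      (Finset.mem_univ 0)
  rwa [sh_zero, ip_self ha, one_pow] at h

/-- The kernel is a Gram kernel. -/
theorem gram (t : ℕ) : ∃ w : (X → ℝ) → EuclideanSpace ℝ (Fin t → X),
    ∀ a b, inner ℝ (w a) (w b) = S t a b := by
  classical
  have hX := card_pos' (X := X)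
  set N : ℝ := (Fintype.card X : ℝ) with hN
  have hs : 0 < Real.sqrt (N ^ (t + 1)) := Real.sqrt_pos.2 (pow_pos hX _)
  refine ⟨fun a => (Real.sqrt (N ^ (t + 1)))⁻¹ •
    WithLp.toLp 2 (fun y : Fin t → X => ∑ x, ∏ i, a (y i + x)), fun a b => ?_⟩
  rw [inner_smul_left, inner_smul_right]
  have h1 : inner ℝ (WithLp.toLp 2 (fun y : Fin t → X => ∑ x, ∏ i, a (y i + x)) :
      EuclideanSpace ℝ (Fin t → X))
      (WithLp.toLp 2 (fun y : Fin t → X => ∑ x, ∏ i, b (y i + x))) = N ^ (t + 1) * S t a b := by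
    rw [PiLp.inner_apply]
    have h2 : ∀ y : Fin t → X, inner ℝ ((WithLp.toLp 2
        (fun y : Fin t → X => ∑ x, ∏ i, a (y i + x)) : EuclideanSpace ℝ (Fin t → X)) y)
        ((WithLp.toLp 2 (fun y : Fin t → X => ∑ x, ∏ i, b (y i + x)) :
          EuclideanSpace ℝ (Fin t → X)) y)
        = ∑ x, ∑ x', ∏ i, (a (y i + x) * b (y i + x')) := by
      intro y
      have h3 : inner ℝ ((WithLp.toLp 2
        (fun y : Fin t → X => ∑ x, ∏ i, a (y i + x)) : EuclideanSpace ℝ (Fin t → X)) y)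
        ((WithLp.toLp 2 (fun y : Fin t → X => ∑ x, ∏ i, b (y i + x)) :
          EuclideanSpace ℝ (Fin t → X)) y)
        = (∑ x, ∏ i, b (y i + x)) * (∑ x, ∏ i, a (y i + x)) := rfl
      rw [h3, mul_comm, Finset.sum_mul_sum]
      refine Finset.sum_congr rfl fun x _ => Finset.sum_congr rfl fun x' _ => ?_
      rw [Finset.prod_mul_distrib]
    rw [Finset.sum_congr rfl fun y _ => h2 y]
    rw [Finset.sum_comm]
    have h4 : ∀ x x' : X, ∑ y : Fin t → X, ∏ i, (a (y i + x) * b (y i + x'))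
        = N ^ t * ip a (sh (-x + x') b) ^ t := by
      intro x x'
      rw [← Fintype.sum_pow (fun y => a (y + x) * b (y + x')) t, ← mul_pow]
      congr 1
      have h5 : ip a (sh (-x + x') b) = ip (sh x a) (sh x' b) := by
        rw [ip_sh_left, sh_sh]
      rw [h5]
      unfold ip sh
      rw [mul_div_cancel₀ _ hX.ne']
    have h6 : ∀ x : X, ∑ y : Fin t → X, ∑ x', ∏ i, (a (y i + x) * b (y i + x'))
        = N ^ t * S t a b := by
      intro x
      rw [Finset.sum_comm, Finset.sum_congr rfl fun x' _ => h4 x x', ← Finset.mul_sum]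
      congr 1
      unfold S
      exact Fintype.sum_equiv (Equiv.addLeft (-x)) _ _ fun y => rfl
    rw [Finset.sum_congr rfl fun x _ => h6 x, Finset.sum_const, Finset.card_univ, nsmul_eq_mul,
      pow_succ, ← hN]
    ring
  rw [h1]
  have h7 : Real.sqrt (N ^ (t + 1)) * Real.sqrt (N ^ (t + 1)) = N ^ (t + 1) :=
    Real.mul_self_sqrt (pow_pos hX _).le
  have h8 : (starRingEnd ℝ) (Real.sqrt (N ^ (t + 1)))⁻¹ = (Real.sqrt (N ^ (t + 1)))⁻¹ := rfl
  rw [h8]
  nth_rewrite 3 [← h7]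
  field_simp

/-- Elementary inequality behind the triangle inequality. -/
theorem pow_ineq {A B : ℝ} (hA0 : 0 ≤ A) (hA : A ≤ 1) (hB0 : 0 ≤ B) (hB : B ≤ 1)
    (hAB : 1 ≤ A + B) {t : ℕ} (ht : 2 ≤ t) :
    A ^ t + B ^ t + (1 - A) * (1 - B) ≤ 1 + (A + B - 1) ^ t := by
  induction t, ht using Nat.le_induction with
  | base => nlinarith [mul_nonneg (sub_nonneg.2 hA) (sub_nonneg.2 hB)]
  | succ t ht ih =>
    have hC : 0 ≤ A + B - 1 := by linarith
    have h1 : (A + B - 1) * (A ^ t + B ^ t + (1 - A) * (1 - B))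
        ≤ (A + B - 1) * (1 + (A + B - 1) ^ t) := mul_le_mul_of_nonneg_left ih hC
    have h2 : A ^ t ≤ A := by
      calc A ^ t ≤ A ^ 1 := pow_le_pow_of_le_one hA0 hA (by omega)
        _ = A := pow_one A
    have h3 : B ^ t ≤ B := by
      calc B ^ t ≤ B ^ 1 := pow_le_pow_of_le_one hB0 hB (by omega)
        _ = B := pow_one B
    have h4 : (1 - B) * A ^ t ≤ (1 - B) * A := mul_le_mul_of_nonneg_left h2 (by linarith)
    have h5 : (1 - A) * B ^ t ≤ (1 - A) * B := mul_le_mul_of_nonneg_left h3 (by linarith)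
    have h6 : 0 ≤ (A + B - 1) * ((1 - A) * (1 - B)) :=
      mul_nonneg hC (mul_nonneg (by linarith) (by linarith))
    rw [pow_succ, pow_succ, pow_succ]
    nlinarith

/-- Good sign functions. -/
structure Good (M : ℝ) (v : X → ℝ) : Prop where
  sign : IsSign v
  auto : ∀ x, x ≠ 0 → |ip v (sh x v)| ≤ 1 / 100
  sq : ∀ u : X → ℝ, IsSign u → ∑ x, ip u (sh x v) ^ 2 ≤ M

theorem even_pow_le {t : ℕ} (ht : Even t) (ht2 : 2 ≤ t) {z c : ℝ} (hz : |z| ≤ c) :
    z ^ t ≤ c ^ (t - 2) * z ^ 2 := by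
  have h1 : z ^ t = |z| ^ (t - 2) * |z| ^ 2 := by
    rw [← pow_add, Nat.sub_add_cancel ht2, ht.pow_abs]
  rw [h1, sq_abs]
  exact mul_le_mul_of_nonneg_right (pow_le_pow_left₀ (abs_nonneg _) hz _) (sq_nonneg _)

theorem S_le_of_small {t : ℕ} (ht : Even t) (ht2 : 2 ≤ t) {M : ℝ} {u v : X → ℝ}
    (hu : IsSign u) (hv : Good M v) (h : ∀ x, |ip u (sh x v)| ≤ 3 / 4) :
    S t u v ≤ (3 / 4) ^ (t - 2) * M := by
  unfold S
  calc ∑ x, ip u (sh x v) ^ t ≤ ∑ x, (3 / 4) ^ (t - 2) * ip u (sh x v) ^ 2 :=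
        Finset.sum_le_sum fun x _ => even_pow_le ht ht2 (h x)
    _ = (3 / 4) ^ (t - 2) * ∑ x, ip u (sh x v) ^ 2 := by rw [Finset.mul_sum]
    _ ≤ _ := mul_le_mul_of_nonneg_left (hv.sq u hu) (by positivity)

theorem S_le_of_large {t : ℕ} (ht : Even t) (ht2 : 2 ≤ t) {M : ℝ} {u v : X → ℝ}
    (hu : IsSign u) (hv : Good M v) {x0 : X} (h : 3 / 4 < |ip u (sh x0 v)|) :
    S t u v ≤ |ip u (sh x0 v)| ^ t + (3 / 4) ^ (t - 2) * M := by
  classical
  unfold S
  rw [← Finset.add_sum_erase _ _ (Finset.mem_univ x0), ht.pow_abs]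
  have h1 : ∀ x ∈ Finset.univ.erase x0, ip u (sh x v) ^ t
      ≤ (3 / 4) ^ (t - 2) * ip u (sh x v) ^ 2 := by
    intro x hx
    refine even_pow_le ht ht2 ?_
    have h2 := ip_tri (hv.sign.sh x0) hu (hv.sign.sh x)
    have h3 : ip (sh x0 v) (sh x v) = ip v (sh (-x0 + x) v) := by
      rw [ip_sh_left, sh_sh]
    have h4 : -x0 + x ≠ 0 := by
      intro h5
      exact (Finset.mem_erase.1 hx).1 ((neg_add_eq_zero.1 h5).symm)
    have h6 := hv.auto _ h4
    rw [h3, ip_comm] at h2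
    linarith
  have h7 : ∑ x ∈ Finset.univ.erase x0, ip u (sh x v) ^ 2 ≤ M :=
    (Finset.sum_le_sum_of_subset_of_nonneg (Finset.erase_subset _ _)
      fun _ _ _ => sq_nonneg _).trans (hv.sq u hu)
  have h8 : ∑ x ∈ Finset.univ.erase x0, ip u (sh x v) ^ t ≤ (3 / 4) ^ (t - 2) * M := by
    calc _ ≤ ∑ x ∈ Finset.univ.erase x0, (3 / 4 : ℝ) ^ (t - 2) * ip u (sh x v) ^ 2 :=
          Finset.sum_le_sum h1
      _ = (3 / 4) ^ (t - 2) * ∑ x ∈ Finset.univ.erase x0, ip u (sh x v) ^ 2 := by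
          rw [Finset.mul_sum]
      _ ≤ _ := mul_le_mul_of_nonneg_left h7 (by positivity)
  linarith

/-- If `|⟨u, τ_x v⟩| = 1` for some `x` then `u` and `v` have the same kernel rows. -/
theorem S_eq_of_one {t : ℕ} (ht : Even t) {u v : X → ℝ} (hu : IsSign u) (hv : IsSign v) {x : X}
    (h : |ip u (sh x v)| = 1) {c : X → ℝ} (hc : IsSign c) : S t u c = S t v c := by
  rw [← S_sh_left t x v c]
  unfold S
  refine Finset.sum_congr rfl fun y _ => ?_
  rw [← ht.pow_abs, abs_ip_eq_of_one hu (hv.sh x) (hc.sh y) h, ht.pow_abs]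

theorem S_le_of_ne {t : ℕ} (ht : Even t) (ht2 : 2 ≤ t) {M γ : ℝ} (hγ : 0 ≤ γ)
    (hγ1 : γ ≤ 1) {u v : X → ℝ} (hu : IsSign u) (hv : Good M v)
    (hg : ∀ x, |ip u (sh x v)| ≤ 1 - γ) :
    S t u v ≤ 1 - γ + (3 / 4) ^ (t - 2) * M := by
  by_cases h2 : ∃ x, 3 / 4 < |ip u (sh x v)|
  · obtain ⟨x, hx⟩ := h2
    have h3 := S_le_of_large ht ht2 hu hv hx
    have h5 : |ip u (sh x v)| ^ t ≤ |ip u (sh x v)| := by
      calc |ip u (sh x v)| ^ t ≤ |ip u (sh x v)| ^ 1 :=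
            pow_le_pow_of_le_one (abs_nonneg _) (by linarith [hg x]) (by omega)
        _ = _ := pow_one _
    linarith [hg x]
  · push Not at h2
    have h3 := S_le_of_small ht ht2 hu hv h2
    linarith

/-- The kernel never exceeds the diagonal. -/
theorem S_le_diag {t : ℕ} (ht : Even t) (ht2 : 2 ≤ t) {M γ : ℝ} (hγ : 0 ≤ γ)
    (hγ1 : γ ≤ 1) (hρ : 2 * ((3 / 4) ^ (t - 2) * M) ≤ γ ^ 2) {u v : X → ℝ}
    (hu : IsSign u) (hv : Good M v)
    (hg : ∀ x, |ip u (sh x v)| = 1 ∨ |ip u (sh x v)| ≤ 1 - γ) :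
    S t u v ≤ S t v v := by
  by_cases h1 : ∃ x, |ip u (sh x v)| = 1
  · obtain ⟨x, hx⟩ := h1
    exact (S_eq_of_one ht hu hv.sign hx hv.sign).le
  · push Not at h1
    have h2 := S_le_of_ne ht ht2 hγ hγ1 hu hv fun x => (hg x).resolve_left (h1 x)
    have h3 := S_self_ge ht hv.sign
    nlinarith

/-- The triangle inequality of the kernel. -/
theorem S_tri {t : ℕ} (ht : Even t) (ht2 : 2 ≤ t) {M γ : ℝ} (hM : 0 ≤ M) (hγ : 0 ≤ γ)
    (hγ1 : γ ≤ 1) (hρ : 2 * ((3 / 4) ^ (t - 2) * M) ≤ γ ^ 2) {u v z : X → ℝ}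
    (hu : IsSign u) (hv : Good M v) (hz : Good M z)
    (huv : ∀ x, |ip u (sh x v)| = 1 ∨ |ip u (sh x v)| ≤ 1 - γ)
    (hvz : ∀ x, |ip v (sh x z)| = 1 ∨ |ip v (sh x z)| ≤ 1 - γ) :
    S t u v + S t v z ≤ S t v v + S t u z := by
  have hρ0 : 0 ≤ (3 / 4 : ℝ) ^ (t - 2) * M := by positivity
  have hγ2 : γ ^ 2 ≤ γ := by nlinarith
  have hvv := S_self_ge ht hv.sign
  have huz := S_nonneg ht u z
  by_cases h1 : ∃ x, |ip u (sh x v)| = 1
  · obtain ⟨x, hx⟩ := h1
    rw [S_eq_of_one ht hu hv.sign hx hv.sign, S_eq_of_one ht hu hv.sign hx hz.sign]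
  by_cases h2 : ∃ x, |ip v (sh x z)| = 1
  · obtain ⟨x, hx⟩ := h2
    have h3 : S t u v = S t u z := by
      rw [S_comm t u v, S_eq_of_one ht hv.sign hz.sign hx hu, S_comm]
    have h4 : S t v z = S t v v := by
      rw [S_comm t v z, ← S_eq_of_one ht hv.sign hz.sign hx hv.sign]
    rw [h3, h4, add_comm]
  push Not at h1 h2
  have h1' : ∀ x, |ip u (sh x v)| ≤ 1 - γ := fun x => (huv x).resolve_left (h1 x)
  have h2' : ∀ x, |ip v (sh x z)| ≤ 1 - γ := fun x => (hvz x).resolve_left (h2 x)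
  by_cases h3 : ∃ x, 3 / 4 < |ip u (sh x v)|
  · by_cases h4 : ∃ x, 3 / 4 < |ip v (sh x z)|
    · obtain ⟨x, hx⟩ := h3
      obtain ⟨y, hy⟩ := h4
      have h5 := S_le_of_large ht ht2 hu hv hx
      have h6 := S_le_of_large ht ht2 hv.sign hz hy
      have h7 := h1' x
      have h8 := h2' y
      have h9 := ip_tri hu (hv.sign.sh x) (hz.sign.sh (x + y))
      rw [← sh_sh, ip_sh_sh, sh_sh] at h9
      have h10 : |ip u (sh (x + y) z)| ^ t ≤ S t u z := by
        rw [ht.pow_abs]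
        exact Finset.single_le_sum (f := fun x => ip u (sh x z) ^ t)
          (fun x _ => ht.pow_nonneg _) (Finset.mem_univ (x + y))
      set A := |ip u (sh x v)| with hA
      set B := |ip v (sh y z)| with hB
      have h11 : (A + B - 1) ^ t ≤ |ip u (sh (x + y) z)| ^ t :=
        pow_le_pow_left₀ (by linarith) (by linarith) _
      have h12 := pow_ineq (A := A) (B := B) (by linarith) (by linarith) (by linarith)
        (by linarith) (by linarith) ht2
      have h13 : γ ^ 2 ≤ (1 - A) * (1 - B) := by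
        rw [sq]
        exact mul_le_mul (by linarith) (by linarith) hγ (by linarith)
      linarith
    · push Not at h4
      have h5 := S_le_of_small ht ht2 hv.sign hz h4
      have h6 := S_le_of_ne ht ht2 hγ hγ1 hu hv h1'
      linarith
  · push Not at h3
    have h5 := S_le_of_small ht ht2 hu hv h3
    have h6 := S_le_of_ne ht ht2 hγ hγ1 hv.sign hz h2'
    linarith

end Vale.Agent.P318.H508
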